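import Vale.Agent.P037.MathlibUsed
import Vale.Agent.P037.Defs
import Vale.Agent.P037.MiniPattern

set_option linter.all false

section

section

/-!
Final arithmetic for P037: the exponential beats the polynomial.
-/

namespace Vale.Agent.P037

theorem final_arith (c C : ℝ) (hc : 0 < c) (_hC : 0 < C) :
    ∃ L : ℕ, 1 ≤ L ∧ ((1:ℝ)/2)^(L-1) < c * (1 / (2 * (5*L+53)^2 : ℝ)) ^ C := by
  obtain ⟨m, hm⟩ := exists_nat_ge C
  have hlim := tendsto_pow_const_mul_const_pow_of_abs_lt_one (2*m) (r := (1:ℝ)/2) (by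
    rw [abs_of_pos (by norm_num)]; norm_num)
  set K : ℝ := 2 * (2 * 58^2) ^ m with hK
  have hKpos : 0 < K := by positivity
  have hev := (hlim.eventually (gt_mem_nhds (show (0:ℝ) < c / K by (clear * - hc; positivity))))
  obtain ⟨L, hL1, hL⟩ := (hev.and (Filter.eventually_ge_atTop 1)).exists
  refine ⟨L, hL, ?_⟩
  have hLr : (1:ℝ) ≤ L := by exact_mod_cast hL
  set X : ℝ := 2 * (5*L+53)^2 with hX
  have hX1 : 1 ≤ X := by rw [hX]; nlinarith only [hLr]
  have hXpos : 0 < X := by linarith only [hX1]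
  have hXle : X ≤ (2 * 58^2) * (L:ℝ)^2 := by
    rw [hX]
    have : (5*(L:ℝ)+53) ≤ 58 * L := by linarith only [hLr]
    nlinarith only [hLr]
  have h1 : X ^ C ≤ (2 * 58^2) ^ m * (L:ℝ)^(2*m) := by
    calc X ^ C ≤ X ^ (m:ℝ) := Real.rpow_le_rpow_of_exponent_le hX1 hm
      _ = X ^ m := Real.rpow_natCast X m
      _ ≤ ((2 * 58^2) * (L:ℝ)^2) ^ m := pow_le_pow_left₀ hXpos.le hXle m
      _ = (2 * 58^2) ^ m * (L:ℝ)^(2*m) := by rw [mul_pow, ← pow_mul]
  have hXC : 0 < X ^ C := Real.rpow_pos_of_pos hXpos C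
  have h2 : (1 / X) ^ C = 1 / X ^ C := by
    rw [one_div, Real.inv_rpow hXpos.le, one_div]
  rw [h2, mul_one_div, lt_div_iff₀ hXC]
  have h3 : ((1:ℝ)/2)^(L-1) = 2 * (1/2)^L := by
    obtain ⟨j, rfl⟩ : ∃ j, L = j + 1 := ⟨L - 1, by omega⟩
    simp only [one_div, add_tsub_cancel_right, inv_pow, pow_succ]
    ring
  rw [h3]
  have h4 : (L:ℝ)^(2*m) * (1/2)^L * K < c := by
    rw [← lt_div_iff₀ hKpos]; exact hL1
  have h5 : 0 ≤ 2 * ((1:ℝ)/2)^L := by positivity
  calc 2 * ((1:ℝ)/2)^L * X ^ C ≤ 2 * (1/2)^L * ((2 * 58^2) ^ m * (L:ℝ)^(2*m)) :=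
        mul_le_mul_of_nonneg_left h1 h5
    _ = (L:ℝ)^(2*m) * (1/2)^L * K := by rw [hK]; ring
    _ < c := h4

/-- Quantitative form: for small `e` one can choose `L ≍ 1/√e`. -/
theorem final_arith_quant :
    ∃ a : ℝ, 0 < a ∧ ∃ e0 : ℝ, 0 < e0 ∧ e0 < 1 ∧ ∀ e : ℝ, 0 < e → e ≤ e0 →
      ∃ L : ℕ, 1 ≤ L ∧ e ≤ 1 / (2 * (5*L+53)^2 : ℝ) ∧
        ((1:ℝ)/2)^(L-1) ≤ Real.exp (-a / Real.sqrt e) := by
  refine ⟨Real.log 2 / 80, by have := Real.log_pos (show (1:ℝ) < 2 by norm_num); positivity,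
    1/1000000, by norm_num, by norm_num, ?_⟩
  intro e he he0
  set s : ℝ := Real.sqrt e with hs
  have hspos : 0 < s := Real.sqrt_pos.2 he
  have hs2 : s ^ 2 = e := Real.sq_sqrt he.le
  have hs1 : s ≤ 1/1000 := by
    rw [hs]
    apply Real.sqrt_le_iff.2
    constructor
    · norm_num
    · norm_num; linarith only [he0]
  set t : ℝ := 1 / s with ht
  have htpos : 0 < t := by positivity
  have hts : t * s = 1 := by rw [ht]; field_simp
  have ht1000 : 1000 ≤ t := by
    rw [ht, le_div_iff₀ hspos]; linarith only [hs1]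
  -- `L = ⌊ t / 20 ⌋`
  set L : ℕ := ⌊t / 20⌋₊ with hLdef
  have hLle : (L:ℝ) ≤ t / 20 := Nat.floor_le (by positivity)
  have hLgt : t / 20 < L + 1 := Nat.lt_floor_add_one _
  have hLbig : (49:ℝ) < L := by linarith only [ht1000, hLgt]
  have hL1 : 1 ≤ L := by
    have : (1:ℝ) ≤ L := by linarith only [hLbig]
    exact_mod_cast this
  refine ⟨L, hL1, ?_, ?_⟩
  · rw [le_div_iff₀ (by (clear * - hL1; positivity))]
    have h1 : (5*(L:ℝ)+53) ≤ 7 / 10 * t := by linarith only [ht1000, hLle]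
    have h2 : (5*(L:ℝ)+53)^2 ≤ (7 / 10 * t)^2 := pow_le_pow_left₀ (by positivity) h1 2
    have h3 : e * t^2 = 1 := by rw [← hs2, ← mul_pow, mul_comm s t, hts, one_pow]
    nlinarith only [he0, h2, h3]
  · have h1 : ((1:ℝ)/2)^(L-1) = Real.exp (-(Real.log 2) * ((L-1 : ℕ):ℝ)) := by
      rw [← Real.rpow_natCast, Real.rpow_def_of_pos (by norm_num)]
      congr 2
      rw [one_div, Real.log_inv]
    rw [h1]
    apply Real.exp_le_exp.2
    have hlog := Real.log_pos (show (1:ℝ) < 2 by norm_num)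
    have hcast : ((L-1 : ℕ):ℝ) = (L:ℝ) - 1 := by
      rw [Nat.cast_sub hL1]; simp
    rw [hcast]
    have h2 : -(Real.log 2 / 80) / s = -(Real.log 2) * (t / 80) := by
      rw [ht]; (clear * - hspos; field_simp)
    rw [h2]
    have h3 : t / 80 ≤ (L:ℝ) - 1 := by linarith only [hLgt, hLbig]
    nlinarith only [hlog, ht1000, hLgt]

end Vale.Agent.P037
end
end

section

section

/-! The small construction for P037: a binary matrix indexed by rows and columns `Row L m`. -/

namespace Vale.Agent.P037.Mini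

/-- index of a gadget: kind (0: chain, 1, 2, 3: zero), level, and two digits -/
abbrev Q (L : ℕ) := Fin 4 × Fin (L + 1) × Fin 2 × Fin 2

/-- first type code of a gadget -/
def qu {L : ℕ} (q : Q L) : ℕ :=
  if q.1 = 2 then 2 * q.2.1 + 2 + q.2.2.2 else
    if q.1 = 3 then 2 * L + q.2.2.1 else 2 * q.2.1 + q.2.2.1

/-- second type code of a gadget -/
def qv {L : ℕ} (q : Q L) : ℕ :=
  if q.1 = 2 then 2 * q.2.1 + q.2.2.1 else
    if q.1 = 3 then 2 * L + q.2.2.1 else 2 * q.2.1 + 2 + q.2.2.2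

/-- the chain gadgets -/
def okC {L : ℕ} (q : Q L) : Prop := q.1 = 0
/-- the zero gadgets -/
def okZ {L : ℕ} (q : Q L) : Prop := q.1 ≠ 0

theorem okC_lev {L : ℕ} {q : Q L} (h : okC q) : qu q / 2 + 1 = qv q / 2 := by
  obtain ⟨k, l, d, d'⟩ := q
  simp only [okC] at h
  subst h
  simp only [qu, Fin.isValue, Fin.reduceEq, ↓reduceIte, qv]
  omega

theorem okZ_lev {L : ℕ} {q : Q L} (h : okZ q) : qu q ≠ qv q ∨ qu q / 2 = L := by
  obtain ⟨k, l, d, d'⟩ := q
  simp only [okZ] at h
  fin_cases k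
  · exact absurd rfl h
  · simp only [qu, Fin.mk_one, Fin.isValue, Fin.reduceEq, ↓reduceIte, qv, ne_eq]; omega
  · simp only [qu, Fin.reduceFinMk, Fin.isValue, ↓reduceIte, qv, ne_eq]; omega
  · simp only [qu, Fin.reduceFinMk, Fin.isValue, Fin.reduceEq, ↓reduceIte, qv, ne_eq, Nat.add_left_cancel_iff, not_true_eq_false, false_or]; omega

/-- classes of lines -/
inductive Cls (L : ℕ) where
  | a (q : Q L) : Cls L
  | b (q : Q L) : Cls L
  | act (s : Fin (2 * L + 1)) : Cls L
  | S : Cls L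
  | T : Cls L
deriving DecidableEq, Fintype

/-- a line (row or column) -/
structure Row (L m : ℕ) where
  cls : Cls L
  par : Fin (2 ^ L * m)
deriving DecidableEq, Fintype

/-- level of an active class -/
def lev (L s : ℕ) : ℕ := min s (2 * L - s)
/-- width of a block of parameters at level `l` -/
def wid (L m l : ℕ) : ℕ := m * 2 ^ (L - l)
/-- index of the node at its level -/
def nd (L m s p : ℕ) : ℕ := p / wid L m (lev L s)
/-- type code of an active row -/
def tc (L m s p : ℕ) : ℕ := 2 * lev L s + nd L m s p % 2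
/-- position cell of an active row -/
def cell (L m s p : ℕ) : ℕ :=
  if s ≤ L then nd L m s p * wid L m (lev L s) else (nd L m s p + 1) * wid L m (lev L s) - 1

def Row.reg {L m : ℕ} (x : Row L m) : ℕ :=
  match x.cls with
  | .a _ => 1
  | .b _ => 2
  | .act _ => 3
  | .S => 4
  | .T => 5

def Row.k2 {L m : ℕ} (x : Row L m) : ℕ :=
  match x.cls with
  | .act s => cell L m s x.par
  | _ => 0

def Row.k3 {L m : ℕ} (x : Row L m) : ℕ :=
  match x.cls with
  | .a q => Encodable.encode q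
  | .b q => Encodable.encode q
  | .act s => s
  | _ => 0

def Row.key {L m : ℕ} (x : Row L m) : ℕ ×ₗ (ℕ ×ₗ (ℕ ×ₗ ℕ)) :=
  toLex (x.reg, toLex (x.k2, toLex (x.k3, (x.par : ℕ))))

theorem Row.key_injective {L m : ℕ} : Function.Injective (Row.key (L := L) (m := m)) := by
  rintro ⟨c, p⟩ ⟨c', p'⟩ h
  simp only [key, EmbeddingLike.apply_eq_iff_eq, Prod.mk.injEq] at h
  obtain ⟨h1, h2, h3, h4⟩ := h
  have hp : p = p' := Fin.ext h4
  subst hp
  cases c <;> cases c' <;> simp_all [Row.reg, Row.k3, Row.k2, Fin.ext_iff]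

instance {L m : ℕ} : LinearOrder (Row L m) := LinearOrder.lift' Row.key Row.key_injective

theorem Row.lt_iff {L m : ℕ} (x y : Row L m) :
    x < y ↔ x.reg < y.reg ∨ (x.reg = y.reg ∧ (x.k2 < y.k2 ∨ (x.k2 = y.k2 ∧
      (x.k3 < y.k3 ∨ (x.k3 = y.k3 ∧ (x.par : ℕ) < y.par))))) := by
  have : x < y ↔ x.key < y.key := Iff.rfl
  rw [this]
  simp only [Row.key, Prod.Lex.toLex_lt_toLex]

/-- type code of a zero gadget on the given side -/
def sel {L : ℕ} (f : Bool) (q : Q L) : ℕ := if f then qu q else qv q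

/-- first identifier of index `q` against an active line of type code `w` -/
def pa {L : ℕ} (f : Bool) (q : Q L) (w : ℕ) : Prop :=
  (okC q ∧ w = qu q) ∨ (okZ q ∧ w = sel f q)
/-- second identifier of index `q` against an active line of type code `w` -/
def pb {L : ℕ} (q : Q L) (w : ℕ) : Prop := okC q ∧ w = qv q

/-- adjacency (`f = false` is the matrix, `f = true` its transpose) -/
def adj {L m : ℕ} (f : Bool) (x y : Row L m) : Prop :=
  match x.cls, y.cls with
  | .a q, .a q' => q = q'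
  | .a q, .b q' => q = q'
  | .b q, .a q' => q = q'
  | .b q, .b q' => q = q'
  | .a q, .act s => pa f q (tc L m s y.par)
  | .b q, .act s => pb q (tc L m s y.par)
  | .a _, .S => False
  | .a q, .T => okZ q
  | .b q, .S => okZ q
  | .b _, .T => False
  | .act s, .a q => pa (!f) q (tc L m s x.par)
  | .act s, .b q => pb q (tc L m s x.par)
  | .S, .a _ => False
  | .S, .b q => okZ q
  | .T, .a q => okZ q
  | .T, .b _ => False
  | .act s, .act t => lev L s = lev L t ∧ nd L m s x.par = nd L m t y.par ∧ lev L s < L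
  | .act _, .S => False
  | .act _, .T => True
  | .S, .act _ => False
  | .S, .S => False
  | .S, .T => False
  | .T, .act _ => True
  | .T, .S => False
  | .T, .T => True

theorem adj_symm {L m : ℕ} (f : Bool) (x y : Row L m) : adj f x y ↔ adj (!f) y x := by
  obtain ⟨c, p⟩ := x
  obtain ⟨c', p'⟩ := y
  cases c <;> cases c' <;>
    first
      | exact Iff.rfl
      | exact eq_comm
      | (simp only [adj, Bool.not_not]; done)
      | (simp only [adj]
         constructor
         · rintro ⟨h1, h2, h3⟩; exact ⟨h1.symm, h2.symm, h1 ▸ h3⟩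
         · rintro ⟨h1, h2, h3⟩; exact ⟨h1.symm, h2.symm, h1 ▸ h3⟩)

/-- the pattern -/
def pat : Fin 5 → Fin 5 → Bool :=
  ![![true, true, true, false, true],
    ![true, true, false, true, false],
    ![true, false, true, false, true],
    ![false, true, false, false, false],
    ![true, false, true, false, true]]

end Vale.Agent.P037.Mini
end
end

section

section

namespace Vale.Agent.P037.Mini

variable {L m : ℕ}

/-- classes whose lines are interchangeable for all gadgets -/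
def Cls.robust {L : ℕ} (c : Cls L) : Prop :=
  match c with
  | .act s => (s : ℕ) = 0 ∨ (s : ℕ) = 2 * L
  | _ => True

open Classical in
/-- the line of class `c` in the configuration with parameters `g`, `p` -/
noncomputable def line {L m : ℕ} (g p : Fin (2 ^ L * m)) (c : Cls L) : Row L m :=
  if c.robust then ⟨c, g⟩ else ⟨c, p⟩

theorem line_cls (g p : Fin (2 ^ L * m)) (c : Cls L) : (line g p c).cls = c := by
  unfold line; split_ifs <;> rfl

theorem nd_robust {s p : ℕ} (hs : s = 0 ∨ s = 2 * L) (hp : p < 2 ^ L * m) :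
    nd L m s p = 0 := by
  unfold nd lev wid
  have : min s (2 * L - s) = 0 := by omega
  rw [this]
  exact Nat.div_eq_of_lt (by simpa only [tsub_zero, mul_comm] using hp)

theorem nd_line (g p : Fin (2 ^ L * m)) (s : Fin (2 * L + 1)) :
    nd L m s (line g p (.act s)).par = nd L m s p := by
  unfold line
  split_ifs with h
  · simp only [Cls.robust] at h
    rw [nd_robust h g.2, nd_robust h p.2]
  · rfl

theorem cell_line (g p : Fin (2 ^ L * m)) (s : Fin (2 * L + 1)) :
    cell L m s (line g p (.act s)).par = cell L m s p := by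
  unfold cell
  rw [nd_line]

theorem tc_line (g p : Fin (2 ^ L * m)) (s : Fin (2 * L + 1)) :
    tc L m s (line g p (.act s)).par = tc L m s p := by
  unfold tc
  rw [nd_line]

theorem cell_mono (hm : 0 < m) {s t p : ℕ} (hst : s ≤ t) (ht : t ≤ 2 * L) :
    cell L m s p ≤ cell L m t p := by
  have hwp : ∀ l, 0 < wid L m l := fun l => by unfold wid; positivity
  unfold cell nd
  rcases le_or_gt t L with h1 | h1
  · rw [if_pos (by omega), if_pos h1]
    have e1 : lev L s = s := by unfold lev; omega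
    have e2 : lev L t = t := by unfold lev; omega
    rw [e1, e2]
    have e3 : wid L m s = wid L m t * 2 ^ (t - s) := by
      unfold wid
      rw [mul_assoc, ← pow_add]; congr 2; omega
    rw [e3, ← Nat.div_div_eq_div_mul]
    generalize wid L m t = a
    generalize 2 ^ (t - s) = b
    calc p / a / b * (a * b) = (p / a / b * b) * a := by ring
      _ ≤ p / a * a := Nat.mul_le_mul_right _ (Nat.div_mul_le_self _ _)
  · rcases le_or_gt s L with h2 | h2
    · rw [if_pos h2, if_neg (by omega)]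
      have hpos : 0 < wid L m (lev L t) := hwp _
      have h3 : p < (p / wid L m (lev L t) + 1) * wid L m (lev L t) := by
        rw [mul_comm]
        exact Nat.lt_mul_div_succ _ hpos
      have h4 := Nat.div_mul_le_self p (wid L m (lev L s))
      omega
    · rw [if_neg (by omega), if_neg (by omega)]
      have e1 : L - lev L s = s - L := by unfold lev; omega
      have e2 : L - lev L t = t - L := by unfold lev; (clear * - hst ht h1 h2; omega)
      have e3 : wid L m (lev L t) = wid L m (lev L s) * 2 ^ (t - s) := by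
        unfold wid
        rw [e1, e2, mul_assoc, ← pow_add]; congr 2; (clear * - hst h1 h2 e2; omega)
      rw [e3, ← Nat.div_div_eq_div_mul]
      have hb : 0 < 2 ^ (t - s) := by positivity
      generalize wid L m (lev L s) = a
      generalize 2 ^ (t - s) = b at hb ⊢
      have h5 : p / a + 1 ≤ (p / a / b + 1) * b := by
        rw [mul_comm]
        exact Nat.lt_mul_div_succ _ hb
      have h6 : (p / a + 1) * a ≤ (p / a / b + 1) * (a * b) := by
        calc (p / a + 1) * a ≤ ((p / a / b + 1) * b) * a := Nat.mul_le_mul_right _ h5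
          _ = _ := by ring
      omega

theorem pos_of_fin (p : Fin (2 ^ L * m)) : 0 < m := by
  rcases Nat.eq_zero_or_pos m with h | h
  · subst h; exact absurd p.2 (by simp)
  · exact h

theorem line_lt_of_reg {g p : Fin (2 ^ L * m)} {c d : Cls L}
    (h : (Row.mk c g).reg < (Row.mk d g).reg) : line g p c < line g p d := by
  rw [Row.lt_iff]
  left
  unfold line
  split_ifs <;> exact h

theorem line_lt_act {g p : Fin (2 ^ L * m)} {s t : Fin (2 * L + 1)} (h : (s : ℕ) < t) :
    line g p (.act s) < line g p (.act t) := by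
  rw [Row.lt_iff]
  right
  have h1 : (line g p (.act s)).k2 ≤ (line g p (.act t)).k2 := by
    have e1 : (line g p (.act s)).k2 = cell L m s p := by
      rw [← cell_line g p s]
      unfold line
      split_ifs <;> rfl
    have e2 : (line g p (.act t)).k2 = cell L m t p := by
      rw [← cell_line g p t]
      unfold line
      split_ifs <;> rfl
    rw [e1, e2]
    exact cell_mono (pos_of_fin p) h.le (by omega)
  have h2 : (line g p (.act s)).reg = (line g p (.act t)).reg := by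
    unfold line
    split_ifs <;> rfl
  have h3 : (line g p (.act s)).k3 < (line g p (.act t)).k3 := by
    unfold line
    split_ifs <;> exact h
  refine ⟨h2, ?_⟩
  omega

/-- type code at a level -/
def tau (L m p l : ℕ) : ℕ := 2 * l + p / wid L m l % 2

theorem tc_eq_tau (s p : ℕ) : tc L m s p = tau L m p (lev L s) := rfl

variable {B : Row L m → Row L m → Prop}

/-- the five lines of a gadget -/
def lines5 (x0 x1 x2 x3 x4 : Row L m) : Fin 5 → Row L m := ![x0, x1, x2, x3, x4]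

theorem strictMono5 {x0 x1 x2 x3 x4 : Row L m} (h0 : x0 < x1) (h1 : x1 < x2) (h2 : x2 < x3)
    (h3 : x3 < x4) : StrictMono (lines5 x0 x1 x2 x3 x4) := by
  rw [Fin.strictMono_iff_lt_succ]
  intro i
  fin_cases i
  · exact h0
  · exact h1
  · exact h2
  · exact h3

/-- zero gadget -/
theorem zero_gadget_aux (hB : ∀ r c : Fin 5 → Row L m, StrictMono r → StrictMono c →
      ¬ ∀ i j, B (r i) (c j) ↔ pat i j = true) {g g' p : Fin (2 ^ L * m)}
    (hag : ∀ c d : Cls L, (c.robust ∨ d.robust) →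
      (B (line g p c) (line g' p d) ↔ adj false (line g p c) (line g' p d)))
    (s t : Fin (2 * L + 1)) (q : Q L) (hq : okZ q) (h1 : tc L m s p = qu q)
    (h2 : tc L m t p = qv q) :
    ¬ B (line g p (.act s)) (line g' p (.act t)) := by
  intro hb
  have hnc : ¬ okC q := fun h => hq h
  apply hB (lines5 (line g p (.a q)) (line g p (.b q)) (line g p (.act s)) (line g p .S)
      (line g p .T))
    (lines5 (line g' p (.a q)) (line g' p (.b q)) (line g' p (.act t)) (line g' p .S)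
      (line g' p .T))
  · exact strictMono5 (line_lt_of_reg (by simp [Row.reg])) (line_lt_of_reg (by simp [Row.reg]))
      (line_lt_of_reg (by simp [Row.reg])) (line_lt_of_reg (by simp [Row.reg]))
  · exact strictMono5 (line_lt_of_reg (by simp [Row.reg])) (line_lt_of_reg (by simp [Row.reg]))
      (line_lt_of_reg (by simp [Row.reg])) (line_lt_of_reg (by simp [Row.reg]))
  · have hpa : pa false q (tc L m t p) := Or.inr ⟨hq, h2⟩
    have hpa' : pa true q (tc L m s p) := Or.inr ⟨hq, h1⟩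
    have hpb : ∀ w, ¬ pb q w := fun w h => hnc h.1
    intro i j
    fin_cases i <;> fin_cases j <;> simp [lines5, pat] <;>
      first
        | exact hb
        | (rw [hag _ _ (by simp [Cls.robust])]
           simp only [adj, line_cls, tc_line, hpa, hpa', hpb, hq, Bool.not_false, not_false_iff])

theorem zero_gadget (hB : ∀ r c : Fin 5 → Row L m, StrictMono r → StrictMono c →
      ¬ ∀ i j, B (r i) (c j) ↔ pat i j = true) {g g' p : Fin (2 ^ L * m)}
    (hag : ∀ c d : Cls L, (c.robust ∨ d.robust) →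
      (B (line g p c) (line g' p d) ↔ adj false (line g p c) (line g' p d)))
    (s t : Fin (2 * L + 1)) (hst : lev L s + 1 = lev L t ∨ lev L t + 1 = lev L s ∨
      (lev L s = L ∧ lev L t = L)) :
    ¬ B (line g p (.act s)) (line g' p (.act t)) := by
  have hs : lev L s ≤ L := by unfold lev; omega
  have ht : lev L t ≤ L := by unfold lev; omega
  rcases hst with h | h | ⟨h, h'⟩
  · apply zero_gadget_aux hB hag s t
      (1, ⟨lev L s, by omega⟩, ⟨nd L m s p % 2, by omega⟩, ⟨nd L m t p % 2, by omega⟩)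
    · simp [okZ]
    · simp [qu, tc]
    · simp only [tc, qv, Fin.isValue, Fin.reduceEq, ↓reduceIte, Nat.add_right_cancel_iff]
      omega
  · apply zero_gadget_aux hB hag s t
      (2, ⟨lev L t, by omega⟩, ⟨nd L m t p % 2, by omega⟩, ⟨nd L m s p % 2, by omega⟩)
    · simp [okZ]
    · simp [qu, tc]
      omega
    · simp [qv, tc]
  · apply zero_gadget_aux hB hag s t
      (3, 0, ⟨nd L m s p % 2, by omega⟩, 0)
    · simp [okZ]
    · simp [qu, tc, h]
    · simp only [tc, h', nd, qv, Fin.isValue, Fin.reduceEq, ↓reduceIte, h, Nat.add_left_cancel_iff]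

/-- chain gadget -/
theorem chain_gadget (hB : ∀ r c : Fin 5 → Row L m, StrictMono r → StrictMono c →
      ¬ ∀ i j, B (r i) (c j) ↔ pat i j = true) {g g' p : Fin (2 ^ L * m)}
    (hag : ∀ c d : Cls L, (c.robust ∨ d.robust) →
      (B (line g p c) (line g' p d) ↔ adj false (line g p c) (line g' p d)))
    {l : ℕ} (hl : l < L)
    (hcorn : ∀ s t : Fin (2 * L + 1), lev L s = l → lev L t = l →
      B (line g p (.act s)) (line g' p (.act t)))
    (s t : Fin (2 * L + 1)) (hs : lev L s = l + 1) (ht : lev L t = l + 1) :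
    B (line g p (.act s)) (line g' p (.act t)) := by
  by_contra hb
  let q : Q L := (0, ⟨l, by omega⟩, ⟨p / wid L m l % 2, by omega⟩,
    ⟨p / wid L m (l + 1) % 2, by omega⟩)
  have hq : okC q := rfl
  have hqu : tau L m p l = qu q := by simp only [tau, qu, Fin.isValue, Fin.reduceEq, ↓reduceIte, Nat.add_left_cancel_iff, q]
  have hqv : tau L m p (l + 1) = qv q := by simp only [tau, qv, Fin.isValue, Fin.reduceEq, ↓reduceIte, Nat.add_right_cancel_iff, q]; omega
  have huv : tau L m p l ≠ tau L m p (l + 1) := by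
    unfold tau; omega
  let x : Fin (2 * L + 1) := ⟨l, by omega⟩
  let z : Fin (2 * L + 1) := ⟨2 * L - l, by omega⟩
  have hx : lev L x = l := by
    show lev L l = l
    unfold lev; omega
  have hz : lev L z = l := by
    show lev L (2 * L - l) = l
    unfold lev; (clear * - hl hs ht hx; omega)
  have hxs : (x : ℕ) < s := by
    show l < s
    unfold lev at hs; omega
  have hsz : (s : ℕ) < z := by
    show (s : ℕ) < 2 * L - l
    unfold lev at hs; (clear * - hl hs ht huv hx hz; omega)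
  have hxt : (x : ℕ) < t := by
    show l < t
    unfold lev at ht; (clear * - hl hs ht huv hx hz; omega)
  have htz : (t : ℕ) < z := by
    show (t : ℕ) < 2 * L - l
    unfold lev at ht; (clear * - hl hs ht huv hx hz; omega)
  have tx : tc L m x p = tau L m p l := by rw [tc_eq_tau, hx]
  have tz : tc L m z p = tau L m p l := by rw [tc_eq_tau, hz]
  have ts : tc L m s p = tau L m p (l + 1) := by rw [tc_eq_tau, hs]
  have tt : tc L m t p = tau L m p (l + 1) := by rw [tc_eq_tau, ht]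
  have z1 := zero_gadget hB hag x t (by (clear * - hl hs ht hx hz; omega))
  have z2 := zero_gadget hB hag z t (by (clear * - hl hs ht hx hz; omega))
  have z3 := zero_gadget hB hag s x (by (clear * - hl hs ht hx hz; omega))
  have z4 := zero_gadget hB hag s z (by (clear * - hl hs ht hx hz; omega))
  have c1 := hcorn x x hx hx
  have c2 := hcorn x z hx hz
  have c3 := hcorn z x hz hx
  have c4 := hcorn z z hz hz
  apply hB (lines5 (line g p (.a q)) (line g p (.b q)) (line g p (.act x)) (line g p (.act s))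
      (line g p (.act z)))
    (lines5 (line g' p (.a q)) (line g' p (.b q)) (line g' p (.act x)) (line g' p (.act t))
      (line g' p (.act z)))
  · exact strictMono5 (line_lt_of_reg (by simp [Row.reg])) (line_lt_of_reg (by simp [Row.reg]))
      (line_lt_act hxs) (line_lt_act hsz)
  · exact strictMono5 (line_lt_of_reg (by simp [Row.reg])) (line_lt_of_reg (by simp [Row.reg]))
      (line_lt_act hxt) (line_lt_act htz)
  · have hpa : ∀ f, pa f q (tau L m p l) := fun f => Or.inl ⟨hq, hqu⟩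
    have hpb : pb q (tau L m p (l + 1)) := ⟨hq, hqv⟩
    have hnpa : ∀ f, ¬ pa f q (tau L m p (l + 1)) := by
      rintro f (h | h)
      · exact huv (hqu.trans h.2.symm)
      · exact h.1 hq
    have hnpb : ¬ pb q (tau L m p l) := fun h => huv (h.2.trans hqv.symm)
    intro i j
    fin_cases i <;> fin_cases j <;> simp [lines5, pat] <;>
      first
        | exact hb
        | exact c1
        | exact c2
        | exact c3
        | exact c4
        | exact z1
        | exact z2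
        | exact z3
        | exact z4
        | (rw [hag _ _ (by simp [Cls.robust])]
           simp only [adj, line_cls, tc_line, tx, tz, ts, tt, hpa, hpb, hnpa, hnpb, not_false_iff])

/-- a configuration without robust change contains a copy -/
theorem no_agree (hL : 1 ≤ L) (hB : ∀ r c : Fin 5 → Row L m, StrictMono r → StrictMono c →
      ¬ ∀ i j, B (r i) (c j) ↔ pat i j = true) (g g' p : Fin (2 ^ L * m)) :
    ∃ c d : Cls L, (c.robust ∨ d.robust) ∧
      ¬ (B (line g p c) (line g' p d) ↔ adj false (line g p c) (line g' p d)) := by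
  by_contra hcon
  push Not at hcon
  have hag : ∀ c d : Cls L, (c.robust ∨ d.robust) →
      (B (line g p c) (line g' p d) ↔ adj false (line g p c) (line g' p d)) := fun c d h => by
    by_contra h2
    have := hcon c d h
    tauto
  have main : ∀ l, l ≤ L → ∀ s t : Fin (2 * L + 1), lev L s = l → lev L t = l →
      B (line g p (.act s)) (line g' p (.act t)) := by
    intro l
    induction l with
    | zero =>
      intro _ s t hs ht
      have hs' : (s : ℕ) = 0 ∨ (s : ℕ) = 2 * L := by unfold lev at hs; omega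
      have ht' : (t : ℕ) = 0 ∨ (t : ℕ) = 2 * L := by unfold lev at ht; omega
      rw [hag (.act s) (.act t) (Or.inl hs')]
      simp only [adj, line_cls, nd_line, hs, ht, true_and]
      refine ⟨?_, hL⟩
      rw [nd_robust hs' p.2, nd_robust ht' p.2]
    | succ l ih =>
      intro hl s t hs ht
      exact chain_gadget hB hag (by omega) (ih (by omega)) s t hs ht
  have hm := main L le_rfl ⟨L, by omega⟩ ⟨L, by omega⟩ (by show lev L L = L; unfold lev; omega)
    (by show lev L L = L; unfold lev; omega)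
  refine zero_gadget hB hag _ _ (Or.inr (Or.inr ?_)) hm
  have : lev L L = L := by unfold lev; omega
  exact ⟨this, this⟩

theorem far (hL : 1 ≤ L) (hB : ∀ r c : Fin 5 → Row L m, StrictMono r → StrictMono c →
      ¬ ∀ i j, B (r i) (c j) ↔ pat i j = true) :
    (2 ^ L * m) ^ 2 ≤ Nat.card {x : Row L m × Row L m // ¬ (B x.1 x.2 ↔ adj false x.1 x.2)} := by
  classical
  have h1 := fun w : Fin (2 ^ L * m) × Fin (2 ^ L * m) × Fin (2 ^ L * m) => no_agree hL hB w.1 w.2.1 w.2.2
  choose c d hr hd using h1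
  let F : Fin (2 ^ L * m) × Fin (2 ^ L * m) × Fin (2 ^ L * m) → Row L m × Row L m := fun w =>
    (line w.1 w.2.2 (c w), line w.2.1 w.2.2 (d w))
  let D : Finset (Row L m × Row L m) :=
    Finset.univ.filter (fun x => ¬ (B x.1 x.2 ↔ adj false x.1 x.2))
  have hD : Nat.card {x : Row L m × Row L m // ¬ (B x.1 x.2 ↔ adj false x.1 x.2)} = D.card := by
    rw [Nat.card_eq_fintype_card, Fintype.card_subtype]
  rw [hD]
  have h2 : (Finset.univ : Finset (Fin (2 ^ L * m) × Fin (2 ^ L * m) × Fin (2 ^ L * m))).card ≤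
      2 ^ L * m * D.card := by
    apply Finset.card_le_mul_card_image_of_maps_to (f := F)
    · intro w _
      simp only [D, Finset.mem_filter, Finset.mem_univ, true_and]
      exact hd w
    · rintro ⟨x, y⟩ _
      have key : ∀ w, F w = (x, y) → (x.cls.robust ∨ y.cls.robust) ∧
          (x.cls.robust → w.1 = x.par) ∧ (¬ x.cls.robust → w.2.2 = x.par) ∧
          (y.cls.robust → w.2.1 = y.par) ∧ (¬ y.cls.robust → w.2.2 = y.par) := by
        intro w hw
        simp only [F, Prod.mk.injEq] at hw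
        obtain ⟨hx, hy⟩ := hw
        have cx : x.cls = c w := by rw [← hx, line_cls]
        have cy : y.cls = d w := by rw [← hy, line_cls]
        rw [cx, cy]
        refine ⟨hr w, ?_, ?_, ?_, ?_⟩
        · intro h
          rw [← hx]; unfold line; rw [if_pos h]
        · intro h
          rw [← hx]; unfold line; rw [if_neg h]
        · intro h
          rw [← hy]; unfold line; rw [if_pos h]
        · intro h
          rw [← hy]; unfold line; rw [if_neg h]
      have hcard : (Finset.univ : Finset (Fin (2 ^ L * m))).card = 2 ^ L * m := by simp only [Finset.card_univ, Fintype.card_fin]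
      by_cases hx : x.cls.robust
      · by_cases hy : y.cls.robust
        · refine le_trans ?_ hcard.le
          apply Finset.card_le_card_of_injOn (fun w => w.2.2) (fun _ _ => by simp only [Finset.coe_univ, Set.mem_univ])
          rintro ⟨a1, a2, a3⟩ ha ⟨b1, b2, b3⟩ hb hab
          simp only [Finset.coe_filter, Finset.mem_univ, true_and, Set.mem_ofPred_eq] at ha hb
          have ka := key _ ha
          have kb := key _ hb
          have e1 := (ka.2.1 hx).trans (kb.2.1 hx).symm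
          have e2 := (ka.2.2.2.1 hy).trans (kb.2.2.2.1 hy).symm
          simp only at e1 e2 hab
          rw [e1, e2, hab]
        · refine le_trans ?_ hcard.le
          apply Finset.card_le_card_of_injOn (fun w => w.2.1) (fun _ _ => by simp only [Finset.coe_univ, Set.mem_univ])
          rintro ⟨a1, a2, a3⟩ ha ⟨b1, b2, b3⟩ hb hab
          simp only [Finset.coe_filter, Finset.mem_univ, true_and, Set.mem_ofPred_eq] at ha hb
          have ka := key _ ha
          have kb := key _ hb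
          have e1 := (ka.2.1 hx).trans (kb.2.1 hx).symm
          have e2 := (ka.2.2.2.2 hy).trans (kb.2.2.2.2 hy).symm
          simp only at e1 e2 hab
          rw [e1, e2, hab]
      · by_cases hy : y.cls.robust
        · refine le_trans ?_ hcard.le
          apply Finset.card_le_card_of_injOn (fun w => w.1) (fun _ _ => by simp only [Finset.coe_univ, Set.mem_univ])
          rintro ⟨a1, a2, a3⟩ ha ⟨b1, b2, b3⟩ hb hab
          simp only [Finset.coe_filter, Finset.mem_univ, true_and, Set.mem_ofPred_eq] at ha hb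
          have ka := key _ ha
          have kb := key _ hb
          have e1 := (ka.2.2.1 hx).trans (kb.2.2.1 hx).symm
          have e2 := (ka.2.2.2.1 hy).trans (kb.2.2.2.1 hy).symm
          simp only at e1 e2 hab
          rw [e1, e2, hab]
        · have : Finset.univ.filter (fun w => F w = (x, y)) = ∅ := by
            apply Finset.filter_eq_empty_iff.2
            intro w _ hw
            rcases (key w hw).1 with h | h
            · exact hx h
            · exact hy h
          rw [this]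
          simp
  simp only [Finset.card_univ, Fintype.card_prod, Fintype.card_fin] at h2
  rcases Nat.eq_zero_or_pos (2 ^ L * m) with h0 | hpos
  · rw [h0]; simp
  have h3 : 2 ^ L * m * (2 ^ L * m) ^ 2 ≤ 2 ^ L * m * D.card := by
    calc 2 ^ L * m * (2 ^ L * m) ^ 2 = 2 ^ L * m * (2 ^ L * m * (2 ^ L * m)) := by ring
      _ ≤ _ := h2
  exact Nat.le_of_mul_le_mul_left h3 hpos

end Vale.Agent.P037.Mini
end
end

section

section

namespace Vale.Agent.P037.Mini

variable {L m : ℕ}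

theorem reg_le_of_lt {x y : Row L m} (h : x < y) : x.reg ≤ y.reg := by
  rcases (Row.lt_iff x y).1 h with h | h
  · omega
  · omega

theorem pa_unique {f : Bool} {q : Q L} {w w' : ℕ} (h : pa f q w) (h' : pa f q w') : w = w' := by
  rcases h with ⟨h1, h2⟩ | ⟨h1, h2⟩ <;> rcases h' with ⟨h3, h4⟩ | ⟨h3, h4⟩
  · rw [h2, h4]
  · exact absurd h1 h3
  · exact absurd h3 h1
  · rw [h2, h4]

theorem pb_unique {q : Q L} {w w' : ℕ} (h : pb q w) (h' : pb q w') : w = w' := by
  rw [h.2, h'.2]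

/-- an identifier column cannot see both an S row (or T row) and an active row in a bad way -/
theorem second_reg {f : Bool} {b x y : Row L m} {k k' x' y' z' : Row L m}
    (hbx : b < x) (hxy : x < y) (hkk : k < k') (hkx : k' < x') (hxy' : x' < y') (hyz' : y' < z')
    (bk : adj f b k) (bk' : adj f b k') (bx' : ¬ adj f b x') (by' : adj f b y')
    (bz' : ¬ adj f b z')
    (xk : adj f x k) (xk' : ¬ adj f x k')
    (yk : ¬ adj f y k) (yk' : adj f y k') (yy' : ¬ adj f y y') : b.reg ≤ 2 := by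
  by_contra hb
  have r1 := reg_le_of_lt hbx
  have r2 := reg_le_of_lt hxy
  have r3 := reg_le_of_lt hkk
  have r4 := reg_le_of_lt hkx
  have r5 := reg_le_of_lt hxy'
  have r6 := reg_le_of_lt hyz'
  obtain ⟨cb, pb'⟩ := b
  obtain ⟨cx, px⟩ := x
  obtain ⟨cy, py⟩ := y
  obtain ⟨ck, pk⟩ := k
  obtain ⟨ck', pk'⟩ := k'
  obtain ⟨cx', px'⟩ := x'
  obtain ⟨cy', py'⟩ := y'
  obtain ⟨cz', pz'⟩ := z'
  clear hbx hxy hkk hkx hxy' hyz'
  cases ck' with
  | a q' =>
    cases ck with
    | a q =>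
      cases cb with
      | a _ => simp [Row.reg] at hb
      | b _ => simp [Row.reg] at hb
      | act s =>
        cases cx with
        | a _ => simp [Row.reg] at r1
        | b _ => simp [Row.reg] at r1
        | act t =>
          simp only [adj] at bk xk bk' xk'
          rw [pa_unique bk xk] at bk'
          exact xk' bk'
        | S => simp [adj] at xk
        | T =>
          cases cy <;> simp [Row.reg] at r2
          (clear * - xk' yk'; simp_all [adj])
      | S => simp [adj] at bk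
      | T =>
        cases cx <;> simp [Row.reg] at r1
        (clear * - bk' xk'; simp_all [adj])
    | b q =>
      simp [Row.reg] at r3
    | act s => simp [Row.reg] at r3
    | S => simp [Row.reg] at r3
    | T => simp [Row.reg] at r3
  | b q' =>
    cases ck with
    | a q =>
      cases cb with
      | a _ => simp [Row.reg] at hb
      | b _ => simp [Row.reg] at hb
      | act s =>
        cases cx with
        | a _ => simp [Row.reg] at r1
        | b _ => simp [Row.reg] at r1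
        | act t =>
          simp only [adj] at bk xk bk' xk'
          rw [pa_unique bk xk] at bk'
          exact xk' bk'
        | S => simp [adj] at xk
        | T =>
          cases cy <;> simp [Row.reg] at r2
          (clear * - yk'; simp_all [adj])
      | S => simp [adj] at bk
      | T => simp [adj] at bk'
    | b q =>
      cases cb with
      | a _ => simp [Row.reg] at hb
      | b _ => simp [Row.reg] at hb
      | act s =>
        cases cx with
        | a _ => simp [Row.reg] at r1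
        | b _ => simp [Row.reg] at r1
        | act t =>
          simp only [adj] at bk xk bk' xk'
          rw [pb_unique bk xk] at bk'
          exact xk' bk'
        | S =>
          simp only [adj] at bk xk
          exact absurd bk.1 xk
        | T => simp [adj] at xk
      | S =>
        cases cx with
        | a _ => simp [Row.reg] at r1
        | b _ => simp [Row.reg] at r1
        | act t => simp [Row.reg] at r1
        | S => (clear * - bk' xk'; simp_all [adj])
        | T => simp [adj] at xk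
      | T => simp [adj] at bk
    | act s => simp [Row.reg] at r3
    | S => simp [Row.reg] at r3
    | T => simp [Row.reg] at r3
  | act s =>
    cases cy' with
    | a _ => simp only [Row.reg] at r4 r5; cases cx' <;> simp at r4 r5
    | b _ => simp only [Row.reg] at r4 r5; cases cx' <;> simp at r4 r5
    | act t =>
      cases cb with
      | a _ => simp [Row.reg] at hb
      | b _ => simp [Row.reg] at hb
      | act u =>
        cases cy with
        | a _ => cases cx <;> simp [Row.reg] at r1 r2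
        | b _ => cases cx <;> simp [Row.reg] at r1 r2
        | act v =>
          simp only [adj] at bk' by' yk' yy'
          apply yy'
          refine ⟨?_, ?_, yk'.2.2⟩
          · rw [yk'.1, ← bk'.1, by'.1]
          · rw [yk'.2.1, ← bk'.2.1, by'.2.1]
        | S => simp [adj] at yk'
        | T => simp [adj] at yy'
      | S => simp [adj] at by'
      | T =>
        cases cx <;> simp [Row.reg] at r1
        simp [adj] at xk'
    | S => cases cb <;> simp_all [adj, Row.reg]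
    | T =>
      cases cz' <;> simp [Row.reg] at r6
      cases cb <;> simp_all [adj, Row.reg]
  | S => cases cb <;> simp_all [adj, Row.reg]
  | T =>
    cases cx' <;> simp [Row.reg] at r4
    cases cb <;> simp_all [adj, Row.reg]

theorem wid_pos (hm : 0 < m) (l : ℕ) : 0 < wid L m l := by
  unfold wid; positivity

theorem cell_lower (hm : 0 < m) (s p : ℕ) :
    nd L m s p * wid L m (lev L s) ≤ cell L m s p := by
  unfold cell
  have := wid_pos (L := L) hm (lev L s)
  split_ifs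
  · exact le_rfl
  · rw [Nat.add_mul]
    omega

theorem cell_upper (hm : 0 < m) (s p : ℕ) :
    cell L m s p < (nd L m s p + 1) * wid L m (lev L s) := by
  unfold cell
  have := wid_pos (L := L) hm (lev L s)
  split_ifs
  · rw [Nat.add_mul]
    omega
  · rw [Nat.add_mul]
    omega

theorem k2_le_of_lt {s t : Fin (2 * L + 1)} {p p' : Fin (2 ^ L * m)}
    (h : (Row.mk (Cls.act s) p : Row L m) < Row.mk (Cls.act t) p') :
    cell L m s p ≤ cell L m t p' := by
  rcases (Row.lt_iff _ _).1 h with h | h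
  · simp [Row.reg] at h
  · simp only [Row.k2] at h
    omega

theorem nest {s t u : Fin (2 * L + 1)} {p p' p'' : Fin (2 ^ L * m)}
    (h1 : (Row.mk (Cls.act s) p : Row L m) < Row.mk (Cls.act t) p')
    (h2 : (Row.mk (Cls.act t) p' : Row L m) < Row.mk (Cls.act u) p'')
    (hl : lev L s = lev L u) (hn : nd L m s p = nd L m u p'') (ht : lev L t = lev L s + 1)
    (hL : lev L s < L) : nd L m t p' / 2 = nd L m s p := by
  have hm : 0 < m := by
    rcases Nat.eq_zero_or_pos m with h | h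
    · subst h; exact absurd p.2 (by simp)
    · exact h
  have e1 := k2_le_of_lt h1
  have e2 := k2_le_of_lt h2
  have a1 := cell_lower (L := L) hm s p
  have a2 := cell_lower (L := L) hm t p'
  have a3 := cell_upper (L := L) hm t p'
  have a4 := cell_upper (L := L) hm u p''
  rw [← hl, ← hn] at a4
  rw [ht] at a2 a3
  have hpow : wid L m (lev L s) = 2 * wid L m (lev L s + 1) := by
    have : 2 ^ (L - lev L s) = 2 * 2 ^ (L - (lev L s + 1)) := by
      rw [← pow_succ']
      congr 1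
      (clear * - hl ht hL; omega)
    unfold wid
    rw [this]
    ring
  rw [hpow] at a1 a4
  have hpos : 0 < wid L m (lev L s + 1) := wid_pos hm _
  generalize wid L m (lev L s + 1) = a at *
  generalize nd L m s p = k at *
  generalize nd L m t p' = n at *
  have b1 : 2 * k * a < (n + 1) * a := by
    calc 2 * k * a = k * (2 * a) := by ring
      _ ≤ _ := a1
      _ ≤ _ := e1
      _ < _ := a3
  have b2 : n * a < (2 * k + 2) * a := by
    calc n * a ≤ _ := a2
      _ ≤ _ := e2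
      _ < _ := a4
      _ = _ := by ring
  have c1 := Nat.lt_of_mul_lt_mul_right b1
  have c2 := Nat.lt_of_mul_lt_mul_right b2
  omega

/-- structure of three lines below two identifiers of the same index -/
theorem lines_struct {f : Bool} {q : Q L} {p p1 : Fin (2 ^ L * m)} {x y z : Row L m}
    (hx : 3 ≤ x.reg) (hxy : x < y) (hyz : y < z)
    (ax : adj f ⟨.a q, p⟩ x) (az : adj f ⟨.a q, p⟩ z)
    (by' : adj f ⟨.b q, p1⟩ y) :
    (okC q ∧ ∃ s t u px py pz, x = ⟨.act s, px⟩ ∧ y = ⟨.act t, py⟩ ∧ z = ⟨.act u, pz⟩ ∧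
      tc L m s px = qu q ∧ tc L m t py = qv q ∧ tc L m u pz = qu q) ∨
    (okZ q ∧ ∃ s px, x = ⟨.act s, px⟩ ∧ tc L m s px = sel f q) := by
  have r1 := reg_le_of_lt hxy
  have r2 := reg_le_of_lt hyz
  obtain ⟨cx, px⟩ := x
  obtain ⟨cy, py⟩ := y
  obtain ⟨cz, pz⟩ := z
  cases cx with
  | a _ => simp only [Row.reg, Nat.not_ofNat_le_one] at hx
  | b _ => simp [Row.reg] at hx
  | act s =>
    simp only [adj] at ax
    rcases ax with ⟨h1, h2⟩ | ⟨h1, h2⟩
    · left
      refine ⟨h1, ?_⟩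
      cases cy with
      | a _ => simp [Row.reg] at r1
      | b _ => simp [Row.reg] at r1
      | act t =>
        simp only [adj] at by'
        cases cz with
        | a _ => simp [Row.reg] at r2
        | b _ => simp [Row.reg] at r2
        | act u =>
          simp only [adj] at az
          rcases az with ⟨h3, h4⟩ | ⟨h3, h4⟩
          · exact ⟨s, t, u, px, py, pz, rfl, rfl, rfl, h2, by'.2, h4⟩
          · exact absurd h1 h3
        | S => simp [adj] at az
        | T =>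
          simp only [adj] at az
          exact absurd h1 az
      | S =>
        simp only [adj] at by'
        exact absurd h1 by'
      | T => simp [adj] at by'
    · right
      exact ⟨h1, s, px, rfl, h2⟩
  | S => simp [adj] at ax
  | T =>
    simp only [adj] at ax
    cases cy <;> simp [Row.reg] at r1
    simp [adj] at by'

theorem lev_le (s : ℕ) : lev L s ≤ L := by
  unfold lev; omega

theorem tc_div (s p : ℕ) : tc L m s p / 2 = lev L s := by
  unfold tc; omega

theorem tc_mod (s p : ℕ) : tc L m s p % 2 = nd L m s p % 2 := by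
  unfold tc; omega

/-- every copy of the pattern ends in a common leaf -/
theorem copy_leaf {f : Bool} {r c : Fin 5 → Row L m} (hr : StrictMono r) (hc : StrictMono c)
    (h : ∀ i j, adj f (r i) (c j) ↔ pat i j = true) :
    ∃ p p' : Fin (2 ^ L * m), r 3 = ⟨.act ⟨L, by omega⟩, p⟩ ∧
      c 3 = ⟨.act ⟨L, by omega⟩, p'⟩ ∧ (p : ℕ) / m = (p' : ℕ) / m := by
  have h' : ∀ i j, adj (!f) (c j) (r i) ↔ pat i j = true := fun i j => by
    rw [← adj_symm]; exact h i j
  have e01 : r 0 < r 1 := hr (by decide)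
  have e12 : r 1 < r 2 := hr (by decide)
  have e23 : r 2 < r 3 := hr (by decide)
  have e34 : r 3 < r 4 := hr (by decide)
  have d01 : c 0 < c 1 := hc (by decide)
  have d12 : c 1 < c 2 := hc (by decide)
  have d23 : c 2 < c 3 := hc (by decide)
  have d34 : c 3 < c 4 := hc (by decide)
  have pos : ∀ i j, pat i j = true → adj f (r i) (c j) := fun i j hp => (h i j).2 hp
  have neg : ∀ i j, pat i j = false → ¬ adj f (r i) (c j) := fun i j hp hh => by
    rw [h i j] at hh; simp [hp] at hh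
  have pos' : ∀ i j, pat i j = true → adj (!f) (c j) (r i) := fun i j hp => (h' i j).2 hp
  have neg' : ∀ i j, pat i j = false → ¬ adj (!f) (c j) (r i) := fun i j hp hh => by
    rw [h' i j] at hh; simp [hp] at hh
  have hR : (r 1).reg ≤ 2 := second_reg e12 e23 d01 d12 d23 d34
    (pos 1 0 rfl) (pos 1 1 rfl) (neg 1 2 rfl) (pos 1 3 rfl) (neg 1 4 rfl)
    (pos 2 0 rfl) (neg 2 1 rfl) (neg 3 0 rfl) (pos 3 1 rfl) (neg 3 3 rfl)
  have hC : (c 1).reg ≤ 2 := second_reg d12 d23 e01 e12 e23 e34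
    (pos' 0 1 rfl) (pos' 1 1 rfl) (neg' 2 1 rfl) (pos' 3 1 rfl) (neg' 4 1 rfl)
    (pos' 0 2 rfl) (neg' 1 2 rfl) (neg' 0 3 rfl) (pos' 1 3 rfl) (neg' 3 3 rfl)
  have hR0 := reg_le_of_lt e01
  have hC0 := reg_le_of_lt d01
  -- identifier indices
  have key : ∀ x : Row L m, x.reg ≤ 2 → ∃ q p, x = ⟨.a q, p⟩ ∨ x = ⟨.b q, p⟩ := by
    rintro ⟨cx, px⟩ hx
    cases cx with
    | a q => exact ⟨q, px, Or.inl rfl⟩
    | b q => exact ⟨q, px, Or.inr rfl⟩
    | act s => simp [Row.reg] at hx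
    | S => simp [Row.reg] at hx
    | T => simp [Row.reg] at hx
  have idid : ∀ (g : Bool) (x y : Row L m) (q q' : Q L) (p p' : Fin (2 ^ L * m)),
      (x = ⟨.a q, p⟩ ∨ x = ⟨.b q, p⟩) → (y = ⟨.a q', p'⟩ ∨ y = ⟨.b q', p'⟩) →
      (adj g x y ↔ q = q') := by
    rintro g x y q q' p p' (rfl | rfl) (rfl | rfl) <;> exact Iff.rfl
  obtain ⟨q0, p0, hq0⟩ := key (r 0) (by omega)
  obtain ⟨q1, p1, hq1⟩ := key (r 1) hR
  obtain ⟨k0, o0, hk0⟩ := key (c 0) (by omega)
  obtain ⟨k1, o1, hk1⟩ := key (c 1) hC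
  have E1 : q0 = k0 := (idid f _ _ _ _ _ _ hq0 hk0).1 (pos 0 0 rfl)
  have E2 : q0 = k1 := (idid f _ _ _ _ _ _ hq0 hk1).1 (pos 0 1 rfl)
  have E3 : q1 = k0 := (idid f _ _ _ _ _ _ hq1 hk0).1 (pos 1 0 rfl)
  subst E1
  subst E2
  subst E3
  -- the third lines are not identifiers
  have hC2 : 3 ≤ (c 2).reg := by
    by_contra hcon
    obtain ⟨q2, p2, hq2⟩ := key (c 2) (by omega)
    have A1 := (idid f _ _ _ _ _ _ hq0 hq2).1 (pos 0 2 rfl)
    exact neg 1 2 rfl ((idid f _ _ _ _ _ _ hq1 hq2).2 A1)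
  have hR2 : 3 ≤ (r 2).reg := by
    by_contra hcon
    obtain ⟨q2, p2, hq2⟩ := key (r 2) (by omega)
    have A1 := (idid (!f) _ _ _ _ _ _ hk0 hq2).1 (pos' 2 0 rfl)
    exact neg' 2 1 rfl ((idid (!f) _ _ _ _ _ _ hk1 hq2).2 A1)
  have indepa : ∀ (g : Bool) (q : Q L) (p p' : Fin (2 ^ L * m)) (y : Row L m),
      adj g ⟨.a q, p⟩ y ↔ adj g ⟨.a q, p'⟩ y := by
    rintro g q p p' ⟨cy, py⟩
    cases cy <;> exact Iff.rfl
  have indepb : ∀ (g : Bool) (q : Q L) (p p' : Fin (2 ^ L * m)) (y : Row L m),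
      adj g ⟨.b q, p⟩ y ↔ adj g ⟨.b q, p'⟩ y := by
    rintro g q p p' ⟨cy, py⟩
    cases cy <;> exact Iff.rfl
  have hr01 : r 0 = ⟨.a q1, p0⟩ ∧ r 1 = ⟨.b q1, p1⟩ := by
    rcases hq0 with h0 | h0 <;> rcases hq1 with h1 | h1
    · exfalso
      have A1 := pos 0 2 rfl
      have A2 := neg 1 2 rfl
      rw [h0] at A1
      rw [h1] at A2
      exact A2 ((indepa _ _ _ _ _).1 A1)
    · exact ⟨h0, h1⟩
    · exfalso
      rw [h0, h1] at hR0
      simp [Row.reg] at hR0
    · exfalso
      have A1 := pos 0 2 rfl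
      have A2 := neg 1 2 rfl
      rw [h0] at A1
      rw [h1] at A2
      exact A2 ((indepb _ _ _ _ _).1 A1)
  have hc01 : c 0 = ⟨.a q1, o0⟩ ∧ c 1 = ⟨.b q1, o1⟩ := by
    rcases hk0 with h0 | h0 <;> rcases hk1 with h1 | h1
    · exfalso
      have A1 := pos' 2 0 rfl
      have A2 := neg' 2 1 rfl
      rw [h0] at A1
      rw [h1] at A2
      exact A2 ((indepa _ _ _ _ _).1 A1)
    · exact ⟨h0, h1⟩
    · exfalso
      rw [h0, h1] at hC0
      simp [Row.reg] at hC0
    · exfalso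
      have A1 := pos' 2 0 rfl
      have A2 := neg' 2 1 rfl
      rw [h0] at A1
      rw [h1] at A2
      exact A2 ((indepb _ _ _ _ _).1 A1)
  obtain ⟨hr0, hr1⟩ := hr01
  obtain ⟨hc0, hc1⟩ := hc01
  have SC := lines_struct (f := f) (q := q1) (p := p0) (p1 := p1) hC2 d23 d34
    (hr0 ▸ pos 0 2 rfl) (hr0 ▸ pos 0 4 rfl) (hr1 ▸ pos 1 3 rfl)
  have SR := lines_struct (f := !f) (q := q1) (p := o0) (p1 := o1) hR2 e23 e34
    (hc0 ▸ pos' 2 0 rfl) (hc0 ▸ pos' 4 0 rfl) (hc1 ▸ pos' 3 1 rfl)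
  rcases SC with ⟨hqc, s', t', u', px', py', pz', hx', hy', hz', tx', ty', tz'⟩ |
    ⟨hqz, s', px', hx', tx'⟩
  · rcases SR with ⟨_, s, t, u, px, py, pz, hx, hy, hz, tx, ty, tz⟩ | ⟨hqz, _⟩
    · have A22 := pos 2 2 rfl
      have A24 := pos 2 4 rfl
      have A42 := pos 4 2 rfl
      have A33 := neg 3 3 rfl
      rw [hx, hx'] at A22
      rw [hx, hz'] at A24
      rw [hz, hx'] at A42
      rw [hy, hy'] at A33
      simp only [adj] at A22 A24 A42 A33
      rw [hx, hy] at e23
      rw [hy, hz] at e34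
      rw [hx', hy'] at d23
      rw [hy', hz'] at d34
      have lx := tc_div (L := L) (m := m) s px
      have ly := tc_div (L := L) (m := m) t py
      have lx' := tc_div (L := L) (m := m) s' px'
      have ly' := tc_div (L := L) (m := m) t' py'
      have hlev := okC_lev hqc
      rw [tx] at lx
      rw [ty] at ly
      rw [tx'] at lx'
      rw [ty'] at ly'
      have N1 := nest e23 e34 (A22.1.trans A42.1.symm) (A22.2.1.trans A42.2.1.symm)
        (by omega) A22.2.2
      have N2 := nest d23 d34 (A22.1.symm.trans A24.1) (A22.2.1.symm.trans A24.2.1)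
        (by omega) (by omega)
      have m1 := tc_mod (L := L) (m := m) t py
      have m2 := tc_mod (L := L) (m := m) t' py'
      rw [ty] at m1
      rw [ty'] at m2
      have hnd : nd L m t py = nd L m t' py' := by
        have := A22.2.1
        omega
      have hlt : lev L t = lev L t' := by omega
      have hnl : ¬ lev L t < L := fun hcon => A33 ⟨hlt, hnd, hcon⟩
      have le1 := lev_le (L := L) (t : ℕ)
      have ht : (t : ℕ) = L := by
        have := t.2
        unfold lev at hnl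
        omega
      have ht' : (t' : ℕ) = L := by
        have := t'.2
        have hnl' : ¬ lev L t' < L := by omega
        unfold lev at hnl'
        (clear * - A22 A24 A42 lx ly ly' hlev hnl ht this hnl'; omega)
      have hpp : (py : ℕ) / m = (py' : ℕ) / m := by
        unfold nd wid at hnd
        rw [ht, ht'] at hnd
        have : L - lev L L = 0 := by unfold lev; (clear * - A22 A24 A42 lx ly ly' hlev hnl ht ht'; omega)
        rw [this] at hnd
        simpa only [pow_zero, mul_one] using hnd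
      refine ⟨py, py', ?_, ?_, hpp⟩
      · rw [hy]
        congr 2
        exact Fin.ext ht
      · rw [hy']
        congr 2
        exact Fin.ext ht'
    · exact absurd hqc hqz
  · rcases SR with ⟨hqc, _⟩ | ⟨_, s, px, hx, tx⟩
    · exfalso
      exact absurd hqc hqz
    · exfalso
      have A22 := pos 2 2 rfl
      rw [hx, hx'] at A22
      simp only [adj] at A22
      have htc : tc L m s px = tc L m s' px' := by
        unfold tc
        rw [A22.1, A22.2.1]
      rw [tx, tx'] at htc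
      have l1 := tc_div (L := L) (m := m) s px
      rw [tx] at l1
      rcases okZ_lev hqz with h1 | h1
      · apply h1
        cases f <;> simp [sel] at htc <;> omega
      · have h2 : qu q1 = qv q1 := by
          cases f <;> simp [sel] at htc <;> omega
        have h3 : sel (!f) q1 = qu q1 := by
          cases f <;> simp [sel, h2]
        rw [h3] at l1
        omega

end Vale.Agent.P037.Mini
end
end

section

section

/-!
The matrices `A_L` and the fixed pattern `H` (of size 49) used to disprove polynomial removal.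
Rows (and columns) are triples `(f, a, b)` ordered lexicographically: `f` is the family,
for `f ≠ 8` the number `a` is the index of the type and `b` the copy number,
for `f = 8` the number `a` is the position and `b` is the level.
-/

namespace Vale.Agent.P037

/-- Rows and columns are lexicographically ordered triples. -/
abbrev Row := ℕ ×ₗ (ℕ ×ₗ ℕ)

/-- constructor of rows -/
def mk (f a b : ℕ) : Row := toLex (f, toLex (a, b))

/-- family -/
def fam (x : Row) : ℕ := (ofLex x).1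
/-- major index -/
def maj (x : Row) : ℕ := (ofLex (ofLex x).2).1
/-- minor index -/
def mnr (x : Row) : ℕ := (ofLex (ofLex x).2).2

@[simp] theorem fam_mk (f a b : ℕ) : fam (mk f a b) = f := rfl
@[simp] theorem maj_mk (f a b : ℕ) : maj (mk f a b) = a := rfl
@[simp] theorem mnr_mk (f a b : ℕ) : mnr (mk f a b) = b := rfl
theorem mk_eta (x : Row) : mk (fam x) (maj x) (mnr x) = x := rfl

theorem lt_iff (x y : Row) : x < y ↔ fam x < fam y ∨ (fam x = fam y ∧
    (maj x < maj y ∨ (maj x = maj y ∧ mnr x < mnr y))) := by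
  rw [Prod.Lex.lt_iff, Prod.Lex.lt_iff]
  rfl

theorem mk_lt_iff (f a b f' a' b' : ℕ) : mk f a b < mk f' a' b' ↔ f < f' ∨ (f = f' ∧
    (a < a' ∨ (a = a' ∧ b < b'))) := by
  rw [lt_iff]; rfl

theorem fam_mono {x y : Row} (h : x < y) : fam x ≤ fam y := by
  rw [lt_iff] at h; omega

theorem maj_mono {x y : Row} (h : x < y) (hf : fam x = fam y) : maj x ≤ maj y := by
  rw [lt_iff] at h; omega

/-- the window of depth `m` of the position `p` (there are `2 ^ m` windows) -/
def win (L n0 m p : ℕ) : ℕ := p / (n0 * 2 ^ (L - m))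

/-- the entries, one direction -/
def Fwd (L n0 : ℕ) (f a b f' a' b' : ℕ) : Prop :=
  (f = 0 ∧ f' = 0 ∧ 44 ≤ a + a') ∨
  (f = 0 ∧ 1 ≤ f' ∧ f' ≤ 3 ∧ a < 1) ∨
  (f = 0 ∧ 4 ≤ f' ∧ f' ≤ 6 ∧ a < 2) ∨
  (f = 1 ∧ f' = 1 ∧ a = a') ∨
  (f = 1 ∧ f' = 4 ∧ a' / 2 = a) ∨
  (f = 4 ∧ f' = 4 ∧ a = a') ∨
  (f = 2 ∧ f' = 2 ∧ (a ≠ a' ∨ a = L)) ∨
  (f = 2 ∧ f' = 5) ∨
  (f = 5 ∧ f' = 5) ∨
  (f = 3 ∧ f' = 3) ∨
  (f = 3 ∧ f' = 6) ∨
  (f = 6 ∧ f' = 6) ∨
  (f = 1 ∧ f' = 8 ∧ a = b') ∨
  (f = 4 ∧ f' = 8 ∧ a / 2 + 1 = b' ∧ win L n0 b' a' % 2 = a % 2) ∨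
  (f = 2 ∧ f' = 8 ∧ a = b') ∨
  (f = 6 ∧ f' = 8 ∧ b' = 0) ∨
  (f = 2 ∧ f' = 10) ∨
  (f = 5 ∧ f' = 9) ∨
  (f = 3 ∧ f' = 7) ∨
  (f = 3 ∧ f' = 11) ∨
  (f = 8 ∧ f' = 8 ∧ b = b' ∧ b < L ∧ win L n0 b a = win L n0 b a') ∨
  (f = 8 ∧ f' = 10) ∨
  (f = 10 ∧ f' = 10) ∨
  (f = 7 ∧ f' = 7) ∨
  (f = 7 ∧ f' = 11) ∨
  (f = 11 ∧ f' = 11)

/-- the entries of the matrix, as a symmetric relation on triples -/
def Ent (L n0 : ℕ) (x y : Row) : Prop :=
  Fwd L n0 (fam x) (maj x) (mnr x) (fam y) (maj y) (mnr y) ∨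
  Fwd L n0 (fam y) (maj y) (mnr y) (fam x) (maj x) (mnr x)

theorem Ent_comm (L n0 : ℕ) (x y : Row) : Ent L n0 x y ↔ Ent L n0 y x := by
  unfold Ent; exact or_comm

/-- The pattern, one direction. Indices: `0..43` anchors, `44, 45` context, `46, 47, 48` core. -/
def PatF (h h' : ℕ) : Prop :=
  (h < 44 ∧ h' < 44 ∧ 44 ≤ h + h') ∨ (h < 1 ∧ h' = 44) ∨ (h < 2 ∧ h' = 45) ∨
  (h = 44 ∧ h' = 44) ∨ (h = 44 ∧ h' = 45) ∨ (h = 45 ∧ h' = 45) ∨
  (h = 44 ∧ h' = 46) ∨ (h = 44 ∧ h' = 48) ∨ (h = 45 ∧ h' = 47) ∨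
  (h = 46 ∧ h' = 46) ∨ (h = 46 ∧ h' = 48) ∨ (h = 48 ∧ h' = 48)

/-- The pattern as a symmetric relation. -/
def Pat (h h' : ℕ) : Prop := PatF h h' ∨ PatF h' h

theorem Pat_comm (h h' : ℕ) : Pat h h' ↔ Pat h' h := by
  unfold Pat; exact or_comm

instance (h h' : ℕ) : Decidable (PatF h h') := by unfold PatF; infer_instance
instance (h h' : ℕ) : Decidable (Pat h h') := by unfold Pat; infer_instance

/-- The pattern `H`. -/
def H : Matrix (Fin 49) (Fin 49) Bool := fun i j => decide (Pat i.1 j.1)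

/-- number of positions -/
def NN (L n0 : ℕ) : ℕ := n0 * 2 ^ L

/-- number of major indices of the family `f` -/
def szA (L n0 : ℕ) (f : ℕ) : ℕ :=
  if f = 0 then 44 else if f = 1 then L else if f = 2 then L + 1 else if f = 4 then 2 * L
  else if f = 8 then NN L n0 else if f < 12 then 1 else 0

/-- number of minor indices of the family `f` -/
def szB (L n0 : ℕ) (f : ℕ) : ℕ := if f = 8 then L + 1 else NN L n0

/-- the set of all rows -/
def S (L n0 : ℕ) : Finset Row :=
  (Finset.range 12).biUnion fun f =>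
    ((Finset.range (szA L n0 f)) ×ˢ (Finset.range (szB L n0 f))).image fun ab => mk f ab.1 ab.2

theorem mem_S (L n0 : ℕ) (x : Row) :
    x ∈ S L n0 ↔ fam x < 12 ∧ maj x < szA L n0 (fam x) ∧ mnr x < szB L n0 (fam x) := by
  unfold S
  simp only [Finset.mem_biUnion, Finset.mem_range, Finset.mem_image, Finset.mem_product, Prod.exists]
  constructor
  · rintro ⟨f, hf, a, b, ⟨ha, hb⟩, rfl⟩
    exact ⟨hf, ha, hb⟩
  · rintro ⟨hf, ha, hb⟩
    exact ⟨fam x, hf, maj x, mnr x, ⟨ha, hb⟩, mk_eta x⟩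

theorem card_S_le (L n0 : ℕ) : (S L n0).card ≤ (5 * L + 53) * NN L n0 := by
  unfold S
  refine le_trans Finset.card_biUnion_le ?_
  refine le_trans (Finset.sum_le_sum fun f _ => Finset.card_image_le) ?_
  simp only [Finset.card_product, Finset.card_range]
  simp only [szA, szB, mul_ite, ite_mul, one_mul, zero_mul, Finset.sum_range_succ, Finset.range_one, Finset.sum_singleton, OfNat.zero_ne_ofNat, ↓reduceIte, OfNat.one_ne_ofNat, one_ne_zero, Nat.reduceEqDiff, OfNat.ofNat_ne_zero, OfNat.ofNat_ne_one, Nat.succ_ne_self, Nat.reduceLT, Nat.lt_add_one]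
  ring_nf
  exact le_refl _

theorem NN_le_card_S (L n0 : ℕ) : NN L n0 ≤ (S L n0).card := by
  have h : ((Finset.range (NN L n0)).image fun b => mk 3 0 b) ⊆ S L n0 := by
    intro x hx
    simp only [Finset.mem_image, Finset.mem_range] at hx
    obtain ⟨b, hb, rfl⟩ := hx
    rw [mem_S]
    simp only [fam_mk, Nat.reduceLT, maj_mk, szA, OfNat.ofNat_ne_zero, ↓reduceIte, OfNat.ofNat_ne_one, Nat.succ_ne_self, Nat.reduceEqDiff, Order.lt_one_iff, mnr_mk, szB, hb, and_self]
  refine le_trans ?_ (Finset.card_le_card h)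
  rw [Finset.card_image_of_injective]
  · simp
  · intro b b' hbb
    have := congrArg mnr hbb
    simpa using this

/-- the order isomorphism with `Fin` -/
noncomputable def iso (L n0 : ℕ) : Fin (S L n0).card ≃o (S L n0) :=
  (S L n0).orderIsoOfFin rfl

open Classical in
/-- the matrix -/
noncomputable def AM (L n0 : ℕ) : Matrix (Fin (S L n0).card) (Fin (S L n0).card) Bool :=
  fun i j => decide (Ent L n0 (iso L n0 i).1 (iso L n0 j).1)

end Vale.Agent.P037
end
end

section

section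

/-!
Every copy of `H` in the matrix uses, for its entry `(46, 46)`, an entry whose two labels have
level `L - 1` and lie in the same window of depth `L - 1`.
-/

namespace Vale.Agent.P037

/-- entry in terms of the coordinates -/
def EE (L n0 f a b g c d : ℕ) : Prop := Fwd L n0 f a b g c d ∨ Fwd L n0 g c d f a b

theorem Ent_eq_EE (L n0 : ℕ) (x y : Row) :
    Ent L n0 x y = EE L n0 (fam x) (maj x) (mnr x) (fam y) (maj y) (mnr y) := rfl

theorem EE_comm (L n0 f a b g c d : ℕ) : EE L n0 f a b g c d ↔ EE L n0 g c d f a b := by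
  unfold EE; exact or_comm

/-- the nonconstant blocks -/
def NC (f g : ℕ) : Prop :=
    (f = 1 ∧ g = 1) ∨ (f = 1 ∧ g = 4) ∨ (f = 4 ∧ g = 1) ∨ (f = 4 ∧ g = 4) ∨ (f = 2 ∧ g = 2) ∨
    (f = 1 ∧ g = 8) ∨ (f = 8 ∧ g = 1) ∨ (f = 4 ∧ g = 8) ∨ (f = 8 ∧ g = 4) ∨
    (f = 2 ∧ g = 8) ∨ (f = 8 ∧ g = 2) ∨ (f = 6 ∧ g = 8) ∨ (f = 8 ∧ g = 6) ∨ (f = 8 ∧ g = 8)

theorem NC_symm {f g : ℕ} (h : NC f g) : NC g f := by
  unfold NC at h
  rcases h with h | h | h | h | h | h | h | h | h | h | h | h | h | h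
  all_goals
    obtain ⟨rfl, rfl⟩ := h
    simp [NC]

theorem block_aux0 (L n0 f g a b c0 d0 c2 d2 : ℕ) (hf1 : 1 ≤ f) (hg1 : 1 ≤ g)
    (e0 : ¬ EE L n0 f a b g c0 d0) (e2 : Fwd L n0 f a b g c2 d2) : NC f g := by
  unfold Fwd at e2
  rcases e2 with h | h | h | h | h | h | h | h | h | h | h | h | h | h | h | h | h | h | h | h |
    h | h | h | h | h | h
  all_goals obtain ⟨hf, hg⟩ := h
  · omega
  · omega
  · omega
  all_goals
    subst hf
    first
      | subst hg
      | (have hg' := hg.1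
         subst hg')
    first
      | (exfalso
         simp [EE, Fwd] at e0
         done)
      | simp [NC]

theorem block_aux0' (L n0 f g a0 b0 c d a2 b2 : ℕ) (hf1 : 1 ≤ f) (hg1 : 1 ≤ g)
    (e0 : ¬ EE L n0 f a0 b0 g c d) (e2 : Fwd L n0 f a2 b2 g c d) : NC f g := by
  unfold Fwd at e2
  rcases e2 with h | h | h | h | h | h | h | h | h | h | h | h | h | h | h | h | h | h | h | h |
    h | h | h | h | h | h
  all_goals obtain ⟨hf, hg⟩ := h
  · omega
  · omega
  · omega
  all_goals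
    subst hf
    first
      | subst hg
      | (have hg' := hg.1
         subst hg')
    first
      | (exfalso
         simp [EE, Fwd] at e0
         done)
      | simp [NC]

/-- Inside one block there is no `2 x 3` submatrix `001 / 011`. -/
theorem block_lemma (L n0 f g a b a' b' c0 d0 c1 d1 c2 d2 : ℕ) (hf1 : 1 ≤ f)
    (hg1 : 1 ≤ g)
    (e0 : ¬ EE L n0 f a b g c0 d0) (e1 : ¬ EE L n0 f a b g c1 d1) (e2 : EE L n0 f a b g c2 d2)
    (e0' : ¬ EE L n0 f a' b' g c0 d0) (e1' : EE L n0 f a' b' g c1 d1)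
    (e2' : EE L n0 f a' b' g c2 d2) : False := by
  have h : NC f g := by
    rcases e2 with e2 | e2
    · exact block_aux0 L n0 f g a b c0 d0 c2 d2 hf1 hg1 e0 e2
    · refine NC_symm (block_aux0' L n0 g f c0 d0 a b c2 d2 hg1 hf1 ?_ e2)
      rwa [EE_comm]
  unfold NC at h
  rcases h with h | h | h | h | h | h | h | h | h | h | h | h | h | h
  all_goals
    obtain ⟨rfl, rfl⟩ := h
    simp [EE, Fwd] at e0 e1 e2 e0' e1' e2'
    first | omega | (clear * - e1 e2 e1' e2'; grind)

/-! ### Elimination lemmas -/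

theorem EE_anch (L n0 a b c d : ℕ) : EE L n0 0 a b 0 c d ↔ 44 ≤ a + c := by
  simp only [EE, Fwd, true_and, nonpos_iff_eq_zero, one_ne_zero, zero_le, Order.lt_one_iff, false_and, and_false, OfNat.ofNat_ne_zero, Order.lt_two_iff, zero_ne_one, and_self, OfNat.zero_ne_ofNat, ne_eq, or_self, or_false, or_iff_left_iff_imp]; omega

theorem EE_sig (L n0 f a b c d : ℕ) (hf : 1 ≤ f) (hf' : f < 12) :
    EE L n0 f a b 0 c d ↔ (f ≤ 3 ∧ c < 1) ∨ (4 ≤ f ∧ f ≤ 6 ∧ c < 2) := by
  interval_cases f <;> simp [EE, Fwd]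

theorem st_ctx {L n0 a b g c d : ℕ} (h : EE L n0 1 a b g c d) (h1 : 1 ≤ g) (h2 : g ≤ 3) :
    g = 1 ∧ a = c := by
  interval_cases g <;> simp [EE, Fwd] at h ⊢
  omega

theorem st_ctx' {L n0 a b g c d : ℕ} (h : EE L n0 1 a b g c d) (h1 : 4 ≤ g) (h2 : g ≤ 6) :
    g = 4 ∧ c / 2 = a := by
  interval_cases g <;> simp [EE, Fwd] at h ⊢
  omega

theorem st_core {L n0 a b g c d : ℕ} (h : EE L n0 1 a b g c d) (h1 : 7 ≤ g) (h2 : g < 12) :
    g = 8 ∧ d = a := by
  interval_cases g <;> simp [EE, Fwd] at h ⊢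
  omega

theorem dg_ctx' {L n0 a b c d : ℕ} (h : EE L n0 4 a b 4 c d) : a = c := by
  simp only [EE, Fwd, OfNat.ofNat_ne_zero, false_and, and_self, Nat.one_le_ofNat, Nat.reduceLeDiff, Order.lt_one_iff, and_false, Std.le_refl, Order.lt_two_iff, true_and, OfNat.ofNat_ne_one, Nat.reduceEqDiff, ne_eq, Nat.succ_ne_self, or_self, or_false, false_or] at h
  omega

theorem dg_core {L n0 a b g c d : ℕ} (h : EE L n0 4 a b g c d) (h1 : 7 ≤ g) (h2 : g < 12) :
    g = 8 ∧ a / 2 + 1 = d ∧ win L n0 d c % 2 = a % 2 := by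
  interval_cases g <;> simp [EE, Fwd] at h ⊢
  exact h

theorem circ_ctx {L n0 a b g c d : ℕ} (h : EE L n0 2 a b g c d) (h1 : 1 ≤ g) (h2 : g ≤ 3) :
    g = 2 ∧ (a ≠ c ∨ a = L) := by
  interval_cases g <;> simp [EE, Fwd] at h ⊢
  omega

theorem circ_ctx' {L n0 a b g c d : ℕ} (h : EE L n0 2 a b g c d) (h1 : 4 ≤ g) (h2 : g ≤ 6) :
    g = 5 := by
  interval_cases g <;> simp [EE, Fwd] at h ⊢

theorem circ_core {L n0 a b g c d : ℕ} (h : EE L n0 2 a b g c d) (h1 : 7 ≤ g) (h2 : g ≤ 9) :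
    g = 8 ∧ d = a := by
  interval_cases g <;> simp [EE, Fwd] at h ⊢
  omega

theorem circP_core {L n0 a b g c d : ℕ} (h : EE L n0 5 a b g c d) (h1 : 7 ≤ g) (h2 : g < 12) :
    g = 9 := by
  interval_cases g <;> simp [EE, Fwd] at h ⊢

theorem bul_ctx {L n0 a b g c d : ℕ} (h : EE L n0 3 a b g c d) (h1 : 1 ≤ g) (h2 : g ≤ 3) :
    g = 3 := by
  interval_cases g <;> simp [EE, Fwd] at h ⊢

theorem bul_ctx' {L n0 a b g c d : ℕ} (h : EE L n0 3 a b g c d) (h1 : 4 ≤ g) (h2 : g ≤ 6) :
    g = 6 := by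
  interval_cases g <;> simp [EE, Fwd] at h ⊢

theorem bulP_core {L n0 a b g c d : ℕ} (h : EE L n0 6 a b g c d) (h1 : 7 ≤ g) (h2 : g < 12) :
    g = 8 ∧ d = 0 := by
  interval_cases g <;> simp [EE, Fwd] at h ⊢
  exact h

theorem lam_lam {L n0 a b c d : ℕ} : EE L n0 8 a b 8 c d ↔
    b = d ∧ b < L ∧ win L n0 b a = win L n0 b c := by
  have h : EE L n0 8 a b 8 c d ↔ (b = d ∧ b < L ∧ win L n0 b a = win L n0 b c) ∨
      (d = b ∧ d < L ∧ win L n0 d c = win L n0 d a) := by
    simp only [EE, Fwd, OfNat.ofNat_ne_zero, false_and, and_self, Nat.one_le_ofNat, Nat.reduceLeDiff, Order.lt_one_iff, and_false, Order.lt_two_iff, OfNat.ofNat_ne_one, Nat.reduceEqDiff, ne_eq, true_and, Nat.succ_ne_self, or_self, or_false, false_or]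
  rw [h]
  constructor
  · rintro (h | ⟨rfl, h2, h3⟩)
    · exact h
    · exact ⟨rfl, h2, h3.symm⟩
  · exact fun h => Or.inl h

theorem Pat_anch {h h' : ℕ} (h1 : h < 44) (h2 : h' < 44) : Pat h h' ↔ 44 ≤ h + h' := by
  unfold Pat PatF
  constructor
  · omega
  · intro h3
    exact Or.inl (Or.inl ⟨h1, h2, h3⟩)

/-! ### Windows -/

theorem win_succ_div {L n0 m p : ℕ} (hm : m + 1 ≤ L) : win L n0 (m + 1) p / 2 = win L n0 m p := by
  unfold win
  rw [Nat.div_div_eq_div_mul]
  congr 1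
  have : L - m = (L - (m + 1)) + 1 := by omega
  rw [this, pow_succ]
  ring

theorem win_mono {L n0 m p q : ℕ} (h : p ≤ q) : win L n0 m p ≤ win L n0 m q := by
  unfold win
  exact Nat.div_le_div_right h

theorem win_zero {L n0 p : ℕ} (h : p < NN L n0) : win L n0 0 p = 0 := by
  unfold win
  unfold NN at h
  exact Nat.div_eq_of_lt (by simpa only [tsub_zero] using h)

/-! ### Copies -/

/-- A copy, with functions on `ℕ`. -/
structure Cpy (L n0 : ℕ) (U V : ℕ → Row) : Prop where
  hU : ∀ h h', h < h' → h' < 49 → U h < U h'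
  hV : ∀ h h', h < h' → h' < 49 → V h < V h'
  hUS : ∀ h, h < 49 → U h ∈ S L n0
  hVS : ∀ h, h < 49 → V h ∈ S L n0
  hE : ∀ h h', h < 49 → h' < 49 → (Ent L n0 (U h) (V h') ↔ Pat h h')

namespace Cpy

variable {L n0 : ℕ} {U V : ℕ → Row}

theorem symm (C : Cpy L n0 U V) : Cpy L n0 V U where
  hU := C.hV
  hV := C.hU
  hUS := C.hVS
  hVS := C.hUS
  hE := fun h h' h1 h2 => by rw [Ent_comm, Pat_comm]; exact C.hE h' h h2 h1

theorem famU (C : Cpy L n0 U V) {h h' : ℕ} (h1 : h ≤ h') (h2 : h' < 49) :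
    fam (U h) ≤ fam (U h') := by
  rcases Nat.lt_or_eq_of_le h1 with h3 | rfl
  · exact fam_mono (C.hU h h' h3 h2)
  · exact le_refl _

theorem famV (C : Cpy L n0 U V) {h h' : ℕ} (h1 : h ≤ h') (h2 : h' < 49) :
    fam (V h) ≤ fam (V h') := C.symm.famU h1 h2

theorem majU (C : Cpy L n0 U V) {h h' : ℕ} (h1 : h ≤ h') (h2 : h' < 49)
    (h3 : fam (U h) = fam (U h')) : maj (U h) ≤ maj (U h') := by
  rcases Nat.lt_or_eq_of_le h1 with h4 | rfl
  · exact maj_mono (C.hU h h' h4 h2) h3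
  · exact le_refl _

theorem fam_lt (C : Cpy L n0 U V) {h : ℕ} (h2 : h < 49) : fam (U h) < 12 :=
  ((mem_S L n0 _).1 (C.hUS h h2)).1

theorem entry (C : Cpy L n0 U V) {h h' : ℕ} (h1 : h < 49) (h2 : h' < 49) :
    EE L n0 (fam (U h)) (maj (U h)) (mnr (U h)) (fam (V h')) (maj (V h')) (mnr (V h')) ↔
      Pat h h' := by
  rw [← Ent_eq_EE]; exact C.hE h h' h1 h2

theorem anch_half (C : Cpy L n0 U V) (h1 : fam (V 1) = 0) : fam (U 43) = 0 := by
  by_contra hne
  have h0 : fam (V 0) = 0 := by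
    have := C.famV (show 0 ≤ 1 by omega) (by omega); omega
  have hm : maj (V 0) ≤ maj (V 1) := C.symm.majU (by omega) (by omega) (by rw [h0, h1])
  have e0 := C.entry (h := 43) (h' := 0) (by omega) (by omega)
  have e1 := C.entry (h := 43) (h' := 1) (by omega) (by omega)
  rw [h0, EE_sig _ _ _ _ _ _ _ (by omega) (C.fam_lt (by omega)),
    Pat_anch (by omega) (by omega)] at e0
  rw [h1, EE_sig _ _ _ _ _ _ _ (by omega) (C.fam_lt (by omega)),
    Pat_anch (by omega) (by omega)] at e1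
  omega

/-- The pigeonhole argument: the anti-staircase does not fit into the body. -/
theorem stair (C : Cpy L n0 U V) (h1 : fam (U 1) ≠ 0) (h2 : fam (V 1) ≠ 0) : False := by
  have hF : ∀ t, t ≤ 20 → fam (U (2 * t + 1)) = fam (U (2 * t + 3)) →
      fam (V (43 - 2 * t)) = fam (V (41 - 2 * t)) → False := by
    intro t ht hf hg
    have f1 := C.famU (show 1 ≤ 2 * t + 1 by omega) (by omega)
    have f2 := C.famU (show 2 * t + 1 ≤ 2 * t + 2 by omega) (by omega)
    have f3 := C.famU (show 2 * t + 2 ≤ 2 * t + 3 by omega) (by omega)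
    have g1 := C.famV (show 1 ≤ 41 - 2 * t by omega) (by omega)
    have g2 := C.famV (show 41 - 2 * t ≤ 42 - 2 * t by (clear * - ht; omega)) (by omega)
    have g3 := C.famV (show 42 - 2 * t ≤ 43 - 2 * t by omega) (by omega)
    have ef : fam (U (2 * t + 2)) = fam (U (2 * t + 1)) := by omega
    have eg : fam (V (42 - 2 * t)) = fam (V (41 - 2 * t)) := by omega
    have a0 := C.entry (h := 2 * t + 1) (h' := 41 - 2 * t) (by omega) (by (clear * - ht; omega))
    have a1 := C.entry (h := 2 * t + 1) (h' := 42 - 2 * t) (by omega) (by omega)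
    have a2 := C.entry (h := 2 * t + 1) (h' := 43 - 2 * t) (by (clear * - ht; omega)) (by omega)
    have b0 := C.entry (h := 2 * t + 2) (h' := 41 - 2 * t) (by omega) (by omega)
    have b1 := C.entry (h := 2 * t + 2) (h' := 42 - 2 * t) (by omega) (by omega)
    have b2 := C.entry (h := 2 * t + 2) (h' := 43 - 2 * t) (by omega) (by omega)
    rw [Pat_anch (by omega) (by omega)] at a0 a1 a2 b0 b1 b2
    rw [eg] at a1
    rw [hg] at a2
    rw [ef] at b0
    rw [ef, eg] at b1
    rw [ef, hg] at b2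
    exact block_lemma L n0 _ _ _ _ _ _ _ _ _ _ _ _ (by (clear * - h1 h2 ht hf f1 f2 f3 a0 a1 a2 b0 b1 b2; omega)) (by omega)
      (mt a0.1 (by (clear * - ht; omega))) (mt a1.1 (by omega)) (a2.2 (by omega)) (mt b0.1 (by omega))
      (b1.2 (by omega)) (b2.2 (by omega))
  have key : ∀ t, t ≤ 21 → t + 1 + fam (V (43 - 2 * t)) ≤ fam (U (2 * t + 1)) + 11 := by
    intro t
    induction t with
    | zero =>
      intro _
      have := C.symm.fam_lt (show 43 < 49 by omega)
      simp only [Nat.mul_zero, Nat.sub_zero, Nat.zero_add]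
      omega
    | succ t ih =>
      intro ht
      have ih' := ih (by omega)
      have f1 := C.famU (show 2 * t + 1 ≤ 2 * t + 3 by omega) (by omega)
      have g1 := C.famV (show 41 - 2 * t ≤ 43 - 2 * t by omega) (by omega)
      have e1 : 2 * (t + 1) + 1 = 2 * t + 3 := by ring
      have e2 : 43 - 2 * (t + 1) = 41 - 2 * t := by omega
      rw [e1, e2]
      by_contra hcon
      exact hF t (by omega) (by omega) (by omega)
  have h := key 21 (by omega)
  have hlt := C.fam_lt (show 2 * 21 + 1 < 49 by omega)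
  have h3 : fam (V (43 - 2 * 21)) = fam (V 1) := rfl
  omega

theorem fam_anch (C : Cpy L n0 U V) : fam (U 43) = 0 := by
  by_cases hV : fam (V 1) = 0
  · exact C.anch_half hV
  · by_cases hU : fam (U 1) = 0
    · have := C.symm.anch_half hU
      have := C.famV (show 1 ≤ 43 by omega) (by omega)
      omega
    · exact (C.stair hU hV).elim

theorem fam_anch' (C : Cpy L n0 U V) {t : ℕ} (ht : t < 44) : fam (U t) = 0 := by
  have := C.fam_anch
  have := C.famU (show t ≤ 43 by omega) (by omega)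
  omega

theorem anch_entry (C : Cpy L n0 U V) {t s : ℕ} (ht : t < 44) (hs : s < 44) :
    44 ≤ maj (U t) + maj (V s) ↔ 44 ≤ t + s := by
  have := C.entry (show t < 49 by omega) (show s < 49 by omega)
  rwa [C.fam_anch' ht, C.symm.fam_anch' hs, EE_anch, Pat_anch ht hs] at this

theorem maj_lt (C : Cpy L n0 U V) {t : ℕ} (ht : t < 49) (h0 : fam (U t) = 0) :
    maj (U t) < 44 := by
  have := ((mem_S L n0 _).1 (C.hUS t ht)).2.1
  rw [h0] at this
  simpa [szA] using this

theorem maj_step (C : Cpy L n0 U V) {t : ℕ} (ht : t < 43) : maj (U t) < maj (U (t + 1)) := by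
  have h1 := C.anch_entry (show t < 44 by omega) (show 43 - t < 44 by omega)
  have h2 := C.anch_entry (show t + 1 < 44 by omega) (show 43 - t < 44 by omega)
  omega

theorem le_maj (C : Cpy L n0 U V) {t : ℕ} (ht : t < 44) : t ≤ maj (U t) := by
  induction t with
  | zero => omega
  | succ t ih =>
    have := ih (by omega)
    have := C.maj_step (t := t) (by omega)
    omega

theorem maj_le (C : Cpy L n0 U V) {t : ℕ} (ht : t < 44) : maj (U (43 - t)) + t ≤ 43 := by
  induction t with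
  | zero =>
    have := C.maj_lt (show 43 < 49 by omega) (C.fam_anch' (by omega))
    simp only [Nat.sub_zero]; omega
  | succ t ih =>
    have h1 := ih (by omega)
    have h2 := C.maj_step (t := 43 - (t + 1)) (by omega)
    have e : 43 - (t + 1) + 1 = 43 - t := by omega
    rw [e] at h2
    omega

theorem maj_eq (C : Cpy L n0 U V) {t : ℕ} (ht : t < 44) : maj (U t) = t := by
  have h1 := C.le_maj ht
  have h2 := C.maj_le (t := 43 - t) (by omega)
  have e : 43 - (43 - t) = t := by omega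
  rw [e] at h2
  omega

theorem body (C : Cpy L n0 U V) {t : ℕ} (ht : 44 ≤ t) (ht' : t < 49) : 1 ≤ fam (U t) := by
  by_contra hne
  have h0 : fam (U t) = 0 := by omega
  have h1 := C.maj_lt ht' h0
  have h2 := C.majU (show 43 ≤ t by omega) ht' (by rw [h0, C.fam_anch' (by omega)])
  rw [C.maj_eq (by omega)] at h2
  have e0 := C.entry ht' (show 0 < 49 by omega)
  have e1 := C.entry ht' (show 1 < 49 by omega)
  rw [h0, C.symm.fam_anch' (by omega), EE_anch, C.symm.maj_eq (by omega)] at e0 e1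
  have : t = 44 ∨ t = 45 ∨ t = 46 ∨ t = 47 ∨ t = 48 := by omega
  have p0 : ¬ Pat t 0 := fun h => by have := e0.2 h; omega
  have p1 : Pat t 1 := e1.1 (by omega)
  rcases this with rfl | rfl | rfl | rfl | rfl
  · exact absurd (by decide) p0
  · exact absurd (by decide) p0
  · exact absurd p1 (by decide)
  · exact absurd p1 (by decide)
  · exact absurd p1 (by decide)

theorem sig (C : Cpy L n0 U V) {t : ℕ} (ht : 44 ≤ t) (ht' : t < 49) :
    (Pat t 0 ↔ (fam (U t) ≤ 6)) ∧ (Pat t 1 ↔ (4 ≤ fam (U t) ∧ fam (U t) ≤ 6)) := by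
  have hb := C.body ht ht'
  have e0 := C.entry ht' (show 0 < 49 by omega)
  have e1 := C.entry ht' (show 1 < 49 by omega)
  rw [C.symm.fam_anch' (by omega), EE_sig _ _ _ _ _ _ _ hb (C.fam_lt ht'),
    C.symm.maj_eq (by omega)] at e0 e1
  rw [← e0, ← e1]
  omega

theorem fam44 (C : Cpy L n0 U V) : 1 ≤ fam (U 44) ∧ fam (U 44) ≤ 3 := by
  have hb := C.body (show 44 ≤ 44 by omega) (by omega)
  have h := C.sig (show 44 ≤ 44 by omega) (by omega)
  have h0 := h.1.1 (by decide)
  have h1 : ¬ (4 ≤ fam (U 44) ∧ fam (U 44) ≤ 6) := fun h2 => absurd (h.2.2 h2) (by decide)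
  omega

theorem fam45 (C : Cpy L n0 U V) : 4 ≤ fam (U 45) ∧ fam (U 45) ≤ 6 := by
  have h := C.sig (show 44 ≤ 45 by omega) (by omega)
  exact h.2.1 (by decide)

theorem fam46 (C : Cpy L n0 U V) : 7 ≤ fam (U 46) := by
  have h := C.sig (show 44 ≤ 46 by omega) (by omega)
  have h1 : ¬ (fam (U 46) ≤ 6) := fun h2 => absurd (h.1.2 h2) (by decide)
  omega

theorem fam47 (C : Cpy L n0 U V) : 7 ≤ fam (U 47) :=
  le_trans C.fam46 (C.famU (by omega) (by omega))

theorem fam48 (C : Cpy L n0 U V) : 7 ≤ fam (U 48) :=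
  le_trans C.fam46 (C.famU (by omega) (by omega))

/-- The conclusion about copies. -/
def Concl (L n0 : ℕ) (U V : ℕ → Row) : Prop :=
  fam (U 46) = 8 ∧ mnr (U 46) = L - 1 ∧ fam (V 46) = 8 ∧ mnr (V 46) = L - 1 ∧
    win L n0 (L - 1) (maj (U 46)) = win L n0 (L - 1) (maj (V 46))

theorem case_st (C : Cpy L n0 U V) (h : fam (U 44) = 1) : Concl L n0 U V := by
  have Cs := C.symm
  have k1 := (C.entry (show 44 < 49 by omega) (show 44 < 49 by omega)).2 (by decide)
  have k2 := (C.entry (show 44 < 49 by omega) (show 45 < 49 by omega)).2 (by decide)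
  have k2' := (Cs.entry (show 44 < 49 by omega) (show 45 < 49 by omega)).2 (by decide)
  have k3 := (C.entry (show 45 < 49 by omega) (show 45 < 49 by omega)).2 (by decide)
  have k4 := (C.entry (show 44 < 49 by omega) (show 46 < 49 by omega)).2 (by decide)
  have k4' := (Cs.entry (show 44 < 49 by omega) (show 46 < 49 by omega)).2 (by decide)
  have k5 := (C.entry (show 44 < 49 by omega) (show 48 < 49 by omega)).2 (by decide)
  have k5' := (Cs.entry (show 44 < 49 by omega) (show 48 < 49 by omega)).2 (by decide)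
  have k6 := (C.entry (show 45 < 49 by omega) (show 47 < 49 by omega)).2 (by decide)
  have k6' := (Cs.entry (show 45 < 49 by omega) (show 47 < 49 by omega)).2 (by decide)
  have k7 := (C.entry (show 46 < 49 by omega) (show 46 < 49 by omega)).2 (by decide)
  have k8 := (C.entry (show 46 < 49 by omega) (show 48 < 49 by omega)).2 (by decide)
  have k8' := (C.entry (show 48 < 49 by omega) (show 46 < 49 by omega)).2 (by decide)
  have k9 : ¬ EE L n0 (fam (U 47)) (maj (U 47)) (mnr (U 47)) (fam (V 47)) (maj (V 47))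
      (mnr (V 47)) := fun hh => absurd
        ((C.entry (show 47 < 49 by omega) (show 47 < 49 by omega)).1 hh) (by decide)
  have v44 := Cs.fam44
  have v45 := Cs.fam45
  have u45 := C.fam45
  rw [h] at k1 k2 k4 k5
  obtain ⟨hv, hm⟩ := st_ctx k1 v44.1 v44.2
  rw [hv] at k2' k4' k5'
  obtain ⟨hv5, hm5⟩ := st_ctx' k2 v45.1 v45.2
  obtain ⟨hu5, hn5⟩ := st_ctx' k2' u45.1 u45.2
  rw [hv5, hu5] at k3
  have hdg := dg_ctx' k3
  obtain ⟨hv6, hm6⟩ := st_core k4 Cs.fam46 (Cs.fam_lt (by omega))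
  obtain ⟨hu6, hn6⟩ := st_core k4' C.fam46 (C.fam_lt (by omega))
  obtain ⟨hv8, hm8⟩ := st_core k5 Cs.fam48 (Cs.fam_lt (by omega))
  obtain ⟨hu8, hn8⟩ := st_core k5' C.fam48 (C.fam_lt (by omega))
  rw [hu5] at k6
  rw [hv5] at k6'
  obtain ⟨hv7, hm7, hw7⟩ := dg_core k6 Cs.fam47 (Cs.fam_lt (by omega))
  obtain ⟨hu7, hn7, hx7⟩ := dg_core k6' C.fam47 (C.fam_lt (by omega))
  rw [hu6, hv6, lam_lam] at k7
  rw [hu6, hv8, lam_lam] at k8
  rw [hu8, hv6, lam_lam] at k8'
  rw [hu7, hv7, lam_lam] at k9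
  have hmU : mnr (U 46) = maj (U 44) := by rw [hn6, hm]
  have mU1 := C.majU (show 46 ≤ 47 by omega) (by (clear * -; omega)) (by rw [hu6, hu7])
  have mU2 := C.majU (show 47 ≤ 48 by omega) (by omega) (by rw [hu7, hu8])
  have mV1 := Cs.majU (show 46 ≤ 47 by omega) (by omega) (by rw [hv6, hv7])
  have mV2 := Cs.majU (show 47 ≤ 48 by omega) (by omega) (by rw [hv7, hv8])
  set m := maj (U 44) with hmdef
  have e1 : mnr (U 47) = m + 1 := by (clear * - hn7 hm5; omega)
  have e2 : mnr (V 47) = m + 1 := by (clear * - hn5 hm7 hm; omega)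
  have hmL : m < L := by have := k7.2.1; omega
  have a1 : win L n0 m (maj (U 46)) = win L n0 m (maj (V 46)) := by
    have := k7.2.2; rwa [hmU] at this
  have a2 : win L n0 m (maj (U 46)) = win L n0 m (maj (V 48)) := by
    have := k8.2.2; rwa [hmU] at this
  have a3 : win L n0 m (maj (U 48)) = win L n0 m (maj (V 46)) := by
    have := k8'.2.2
    have e : mnr (U 48) = m := by (clear * - k7 k8 k8' hn5 hn6 hm7 hm; omega)
    rwa [e] at this
  have b1 := win_mono (L := L) (n0 := n0) (m := m) mU1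
  have b2 := win_mono (L := L) (n0 := n0) (m := m) mU2
  have b3 := win_mono (L := L) (n0 := n0) (m := m) mV1
  have b4 := win_mono (L := L) (n0 := n0) (m := m) mV2
  have c1 := win_succ_div (L := L) (n0 := n0) (m := m) (p := maj (U 47)) (by (clear * - k7 k8 k8' hn5 hn6 hm7 hm; omega))
  have c2 := win_succ_div (L := L) (n0 := n0) (m := m) (p := maj (V 47)) (by omega)
  rw [e2] at hw7
  rw [e1] at hx7
  rw [e1, e2] at k9
  have hmL1 : ¬ (m + 1 < L) := by
    intro hlt
    apply k9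
    refine ⟨rfl, hlt, ?_⟩
    omega
  have hfin : m = L - 1 := by (clear * - k7 k8 k8' hn5 hn6 hm7 hm hmL1; omega)
  refine ⟨hu6, by (clear * - k7 k8 k8' hn5 hn6 hm7 hm hfin; omega), hv6, by (clear * - k7 k8 k8' hn5 hn6 hm7 hm hfin; omega), ?_⟩
  rw [← hfin]
  exact a1

theorem case_circ (C : Cpy L n0 U V) (h : fam (U 44) = 2) : False := by
  have Cs := C.symm
  have k1 := (C.entry (show 44 < 49 by omega) (show 44 < 49 by omega)).2 (by decide)
  have k2 := (C.entry (show 44 < 49 by omega) (show 45 < 49 by omega)).2 (by decide)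
  have k2' := (Cs.entry (show 44 < 49 by omega) (show 45 < 49 by omega)).2 (by decide)
  have k4 := (C.entry (show 44 < 49 by omega) (show 46 < 49 by omega)).2 (by decide)
  have k4' := (Cs.entry (show 44 < 49 by omega) (show 46 < 49 by omega)).2 (by decide)
  have k6 := (C.entry (show 45 < 49 by omega) (show 47 < 49 by omega)).2 (by decide)
  have k6' := (Cs.entry (show 45 < 49 by omega) (show 47 < 49 by omega)).2 (by decide)
  have k7 := (C.entry (show 46 < 49 by omega) (show 46 < 49 by omega)).2 (by decide)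
  have v44 := Cs.fam44
  have v45 := Cs.fam45
  have u45 := C.fam45
  rw [h] at k1 k2 k4
  obtain ⟨hv, hm⟩ := circ_ctx k1 v44.1 v44.2
  rw [hv] at k2' k4'
  have hv5 := circ_ctx' k2 v45.1 v45.2
  have hu5 := circ_ctx' k2' u45.1 u45.2
  rw [hu5] at k6
  rw [hv5] at k6'
  have hv7 := circP_core k6 Cs.fam47 (Cs.fam_lt (by omega))
  have hu7 := circP_core k6' C.fam47 (C.fam_lt (by omega))
  have f1 := C.famU (show 46 ≤ 47 by omega) (by omega)
  have f2 := Cs.famU (show 46 ≤ 47 by omega) (by omega)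
  obtain ⟨hv6, hm6⟩ := circ_core k4 Cs.fam46 (by omega)
  obtain ⟨hu6, hn6⟩ := circ_core k4' C.fam46 (by omega)
  rw [hu6, hv6, lam_lam] at k7
  obtain ⟨q1, q2, q3⟩ := k7
  omega

theorem case_bul (C : Cpy L n0 U V) (hL : 1 ≤ L) (h : fam (U 44) = 3) : False := by
  have Cs := C.symm
  have k1 := (C.entry (show 44 < 49 by omega) (show 44 < 49 by omega)).2 (by decide)
  have k2 := (C.entry (show 44 < 49 by omega) (show 45 < 49 by omega)).2 (by decide)
  have k2' := (Cs.entry (show 44 < 49 by omega) (show 45 < 49 by omega)).2 (by decide)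
  have k6 := (C.entry (show 45 < 49 by omega) (show 47 < 49 by omega)).2 (by decide)
  have k6' := (Cs.entry (show 45 < 49 by omega) (show 47 < 49 by omega)).2 (by decide)
  have k9 : ¬ EE L n0 (fam (U 47)) (maj (U 47)) (mnr (U 47)) (fam (V 47)) (maj (V 47))
      (mnr (V 47)) := fun hh => absurd
        ((C.entry (show 47 < 49 by omega) (show 47 < 49 by omega)).1 hh) (by decide)
  have v44 := Cs.fam44
  have v45 := Cs.fam45
  have u45 := C.fam45
  rw [h] at k1 k2
  have hv := bul_ctx k1 v44.1 v44.2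
  rw [hv] at k2'
  have hv5 := bul_ctx' k2 v45.1 v45.2
  have hu5 := bul_ctx' k2' u45.1 u45.2
  rw [hu5] at k6
  rw [hv5] at k6'
  obtain ⟨hv7, hm7⟩ := bulP_core k6 Cs.fam47 (Cs.fam_lt (by omega))
  obtain ⟨hu7, hn7⟩ := bulP_core k6' C.fam47 (C.fam_lt (by omega))
  rw [hu7, hv7, lam_lam] at k9
  apply k9
  have m1 : maj (U 47) < NN L n0 := by
    have := ((mem_S L n0 _).1 (C.hUS 47 (by omega))).2.1
    rw [hu7] at this
    simpa only [gt_iff_lt, szA, OfNat.ofNat_ne_zero, ↓reduceIte, OfNat.ofNat_ne_one, Nat.reduceEqDiff] using this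
  have m2 : maj (V 47) < NN L n0 := by
    have := ((mem_S L n0 _).1 (C.hVS 47 (by omega))).2.1
    rw [hv7] at this
    simpa only [gt_iff_lt, szA, OfNat.ofNat_ne_zero, ↓reduceIte, OfNat.ofNat_ne_one, Nat.reduceEqDiff] using this
  rw [hn7, hm7]
  exact ⟨rfl, by omega, by rw [win_zero m1, win_zero m2]⟩

theorem concl (C : Cpy L n0 U V) (hL : 1 ≤ L) : Concl L n0 U V := by
  have h := C.fam44
  have : fam (U 44) = 1 ∨ fam (U 44) = 2 ∨ fam (U 44) = 3 := by omega
  rcases this with h1 | h2 | h3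
  · exact C.case_st h1
  · exact (C.case_circ h2).elim
  · exact (C.case_bul hL h3).elim

end Cpy

/-- Every copy of the pattern uses, at the entry `(46, 46)`, two labels of level `L - 1` in the
same window of depth `L - 1`. -/
theorem copy_forces (L n0 : ℕ) (hL : 1 ≤ L) (_hn0 : 1 ≤ n0) (u v : Fin 49 → Row)
    (hu : StrictMono u) (hv : StrictMono v) (huS : ∀ h, u h ∈ S L n0) (hvS : ∀ h, v h ∈ S L n0)
    (hE : ∀ h h' : Fin 49, Ent L n0 (u h) (v h') ↔ Pat h.1 h'.1) :
    fam (u 46) = 8 ∧ mnr (u 46) = L - 1 ∧ fam (v 46) = 8 ∧ mnr (v 46) = L - 1 ∧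
      win L n0 (L - 1) (maj (u 46)) = win L n0 (L - 1) (maj (v 46)) := by
  have C : Cpy L n0 (fun h => if hh : h < 49 then u ⟨h, hh⟩ else mk 0 0 0)
      (fun h => if hh : h < 49 then v ⟨h, hh⟩ else mk 0 0 0) := by
    refine ⟨?_, ?_, ?_, ?_, ?_⟩
    · intro h h' h1 h2
      have h3 : h < 49 := by omega
      simp only [h2, h3, dif_pos]
      exact hu h1
    · intro h h' h1 h2
      have h3 : h < 49 := by omega
      simp only [h2, h3, dif_pos]
      exact hv h1
    · intro h h1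
      simp only [h1, dif_pos]
      exact huS _
    · intro h h1
      simp only [h1, dif_pos]
      exact hvS _
    · intro h h' h1 h2
      simp only [h1, h2, dif_pos]
      exact hE _ _
  exact C.concl hL

end Vale.Agent.P037
end
end

section

section

/-!
Counting: the number of ordered copies of `H` in `AM L n0` is at most `n ^ 98 / 2 ^ (L - 1)`.
-/

namespace Vale.Agent.P037

/-- the pairs of indices that may serve as images of the core index `46` -/
def GoodPair (L n0 : ℕ) (x y : Row) : Prop :=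
  fam x = 8 ∧ mnr x = L - 1 ∧ fam y = 8 ∧ mnr y = L - 1 ∧
    win L n0 (L - 1) (maj x) = win L n0 (L - 1) (maj y)

theorem row_ext {x y : Row} (h1 : fam x = fam y) (h2 : maj x = maj y) (h3 : mnr x = mnr y) :
    x = y := by
  rw [← mk_eta x, ← mk_eta y, h1, h2, h3]

theorem card_goodPair_le (L n0 : ℕ) (hL : 1 ≤ L) (hn0 : 1 ≤ n0) :
    Nat.card {p : Fin (S L n0).card × Fin (S L n0).card //
      GoodPair L n0 (iso L n0 p.1).1 (iso L n0 p.2).1} ≤ NN L n0 * (n0 * 2) := by
  have hw : 0 < n0 * 2 := by omega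
  have hmaj : ∀ i : Fin (S L n0).card, fam (iso L n0 i).1 = 8 →
      maj (iso L n0 i).1 < NN L n0 := by
    intro i hi
    have := (mem_S L n0 (iso L n0 i).1).1 (iso L n0 i).2
    rw [hi] at this
    exact this.2.1
  let F : {p : Fin (S L n0).card × Fin (S L n0).card //
      GoodPair L n0 (iso L n0 p.1).1 (iso L n0 p.2).1} → Fin (NN L n0) × Fin (n0 * 2) :=
    fun p => (⟨maj (iso L n0 p.1.1).1, hmaj _ p.2.1⟩,
      ⟨maj (iso L n0 p.1.2).1 % (n0 * 2), Nat.mod_lt _ hw⟩)
  have hF : Function.Injective F := by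
    rintro ⟨⟨x, y⟩, hx1, hx2, hy1, hy2, hxy⟩ ⟨⟨x', y'⟩, hx1', hx2', hy1', hy2', hxy'⟩ h
    simp only [F, Prod.mk.injEq, Fin.mk.injEq] at h
    obtain ⟨h1, h2⟩ := h
    simp only at hx1 hx2 hy1 hy2 hxy hx1' hx2' hy1' hy2' hxy'
    have hwin : L - (L - 1) = 1 := by (clear * - hL hy2 hx2' hy2'; omega)
    simp only [win, hwin, pow_one] at hxy hxy'
    have h3 : maj (iso L n0 y).1 = maj (iso L n0 y').1 := by
      have e1 := Nat.div_add_mod (maj (iso L n0 y).1) (n0 * 2)
      have e2 := Nat.div_add_mod (maj (iso L n0 y').1) (n0 * 2)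
      rw [← e1, ← e2, ← hxy, ← hxy', h1, h2]
    have hxx : (iso L n0 x).1 = (iso L n0 x').1 :=
      row_ext (by rw [hx1, hx1']) h1 (by rw [hx2, hx2'])
    have hyy : (iso L n0 y).1 = (iso L n0 y').1 :=
      row_ext (by rw [hy1, hy1']) h3 (by rw [hy2, hy2'])
    have hx : x = x' := (iso L n0).injective (Subtype.ext hxx)
    have hy : y = y' := (iso L n0).injective (Subtype.ext hyy)
    subst hx; subst hy; rfl
  have := Nat.card_le_card_of_injective F hF
  simpa only [ge_iff_le, Nat.card_eq_fintype_card, Fintype.card_prod, Fintype.card_fin] using this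

theorem fun_split {n : ℕ} {f g : Fin 49 → Fin n} (h1 : f 46 = g 46)
    (h2 : f ∘ Fin.succAbove 46 = g ∘ Fin.succAbove 46) : f = g := by
  funext i
  rcases Fin.eq_self_or_eq_succAbove 46 i with h | ⟨j, hj⟩
  · rw [h, h1]
  · rw [hj]; exact congrFun h2 j

theorem numCopies_AM_le (L n0 : ℕ) (hL : 1 ≤ L) (hn0 : 1 ≤ n0) :
    numCopies H (AM L n0) * 2 ^ (L - 1) ≤ (S L n0).card ^ (2 * 49) := by
  classical
  set n := (S L n0).card with hn
  have key : ∀ r c : Fin 49 ↪o Fin n, IsCopy H (AM L n0) r c →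
      GoodPair L n0 (iso L n0 (r 46)).1 (iso L n0 (c 46)).1 := by
    intro r c hrc
    have := copy_forces L n0 hL hn0 (fun h => (iso L n0 (r h)).1) (fun h => (iso L n0 (c h)).1)
      (fun a b hab => (iso L n0).strictMono (r.strictMono hab))
      (fun a b hab => (iso L n0).strictMono (c.strictMono hab))
      (fun h => (iso L n0 (r h)).2) (fun h => (iso L n0 (c h)).2)
      (fun h h' => by
        have := hrc h h'
        simp only [AM, H] at this
        exact decide_eq_decide.1 this)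
    exact this
  let F : {rc : (Fin 49 ↪o Fin n) × (Fin 49 ↪o Fin n) // IsCopy H (AM L n0) rc.1 rc.2} →
      {p : Fin n × Fin n // GoodPair L n0 (iso L n0 p.1).1 (iso L n0 p.2).1} ×
        ((Fin 48 → Fin n) × (Fin 48 → Fin n)) :=
    fun rc => (⟨(rc.1.1 46, rc.1.2 46), key _ _ rc.2⟩,
      (rc.1.1 ∘ Fin.succAbove 46, rc.1.2 ∘ Fin.succAbove 46))
  have hF : Function.Injective F := by
    rintro ⟨⟨r, c⟩, h⟩ ⟨⟨r', c'⟩, h'⟩ hh
    simp only [F, Prod.mk.injEq, Subtype.mk.injEq] at hh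
    obtain ⟨⟨h1, h2⟩, h3, h4⟩ := hh
    have hr : r = r' := DFunLike.coe_injective (fun_split h1 h3)
    have hc : c = c' := DFunLike.coe_injective (fun_split h2 h4)
    subst hr; subst hc; rfl
  have hcard : numCopies H (AM L n0) ≤ (NN L n0 * (n0 * 2)) * (n ^ 48 * n ^ 48) := by
    unfold numCopies
    refine le_trans (Nat.card_le_card_of_injective F hF) ?_
    rw [Nat.card_prod, Nat.card_prod]
    have h48 : Nat.card (Fin 48 → Fin n) = n ^ 48 := by simp only [Nat.card_eq_fintype_card, Fintype.card_pi, Fintype.card_fin, Finset.prod_const, Finset.card_univ]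
    rw [h48]
    exact Nat.mul_le_mul_right _ (card_goodPair_le L n0 hL hn0)
  have hNN : NN L n0 ≤ n := NN_le_card_S L n0
  have hpow : n0 * 2 * 2 ^ (L - 1) = NN L n0 := by
    unfold NN
    rw [mul_assoc, ← pow_succ']
    congr 2
    omega
  calc numCopies H (AM L n0) * 2 ^ (L - 1)
      ≤ (NN L n0 * (n0 * 2)) * (n ^ 48 * n ^ 48) * 2 ^ (L - 1) :=
        Nat.mul_le_mul_right _ hcard
    _ = (NN L n0 * (n0 * 2 * 2 ^ (L - 1))) * (n ^ 48 * n ^ 48) := by ring
    _ = (NN L n0 * NN L n0) * (n ^ 48 * n ^ 48) := by rw [hpow]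
    _ ≤ (n * n) * (n ^ 48 * n ^ 48) := by (clear * - hNN; gcongr)
    _ = n ^ (2 * 49) := by ring

end Vale.Agent.P037
end
end

section

section

/-!
Averaging: if there are few bad pairs, then some copy index `i` for rows, `j` for columns, and some
window contain many good positions.
-/

namespace Vale.Agent.P037

open Finset

/-- Enumeration of the first elements of a large finite set of naturals. -/
theorem enum_of_card (G : Finset ℕ) (K : ℕ) (hG : K + 1 ≤ G.card) :
    ∃ p : ℕ → ℕ, (∀ a b, a < b → b ≤ K → p a < p b) ∧ ∀ a ≤ K, p a ∈ G := by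
  obtain ⟨G', hG', hc⟩ := Finset.exists_subset_card_eq hG
  refine ⟨fun a => if h : a < K + 1 then G'.orderEmbOfFin hc ⟨a, h⟩ else 0, ?_, ?_⟩
  · intro a b hab hb
    have ha' : a < K + 1 := by omega
    have hb' : b < K + 1 := by omega
    simp only [ha', hb', dif_pos]
    exact (G'.orderEmbOfFin hc).strictMono hab
  · intro a ha
    have ha' : a < K + 1 := by omega
    simp only [ha', dif_pos]
    exact hG' (Finset.orderEmbOfFin_mem G' hc ⟨a, ha'⟩)

/-- A window with few bad elements. -/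
theorem window_avg (V n0 : ℕ) (X Y : Finset ℕ) (hXY : 2 * (X.card + Y.card) < V * n0) :
    ∃ w < V, 2 * ((X ∩ Finset.Ico (w * n0) ((w + 1) * n0)).card +
      (Y ∩ Finset.Ico (w * n0) ((w + 1) * n0)).card) < n0 := by
  have hdis : ∀ X : Finset ℕ,
      ∑ w ∈ range V, (X ∩ Finset.Ico (w * n0) ((w + 1) * n0)).card ≤ X.card := by
    intro X
    rw [← Finset.card_biUnion]
    · apply Finset.card_le_card
      intro x hx
      simp only [mem_biUnion, mem_inter] at hx
      obtain ⟨w, _, h, _⟩ := hx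
      exact h
    · intro a _ b _ hab
      rw [Function.onFun, Finset.disjoint_left]
      intro x hx hx'
      simp only [mem_inter, mem_Ico] at hx hx'
      rcases lt_or_gt_of_ne hab with h | h
      · have : (a + 1) * n0 ≤ b * n0 := Nat.mul_le_mul_right _ h
        omega
      · have : (b + 1) * n0 ≤ a * n0 := Nat.mul_le_mul_right _ h
        omega
  have key : ∃ w ∈ range V, 2 * ((X ∩ Finset.Ico (w * n0) ((w + 1) * n0)).card +
      (Y ∩ Finset.Ico (w * n0) ((w + 1) * n0)).card) < n0 := by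
    apply Finset.exists_lt_of_sum_lt
    rw [← Finset.mul_sum, Finset.sum_add_distrib]
    simp only [sum_const, card_range, smul_eq_mul]
    have h1 := hdis X
    have h2 := hdis Y
    (clear * - hXY h1 h2; omega)
  obtain ⟨w, hw, h⟩ := key
  exact ⟨w, mem_range.1 hw, h⟩

/-- Many good positions in a window. -/
theorem window_enum (L w : ℕ) (X : Finset ℕ)
    (h : 2 * (X ∩ Finset.Ico (w * (4 * L + 4)) ((w + 1) * (4 * L + 4))).card < 4 * L + 4) :
    ∃ p : ℕ → ℕ, (∀ a b, a < b → b ≤ 2 * L → p a < p b) ∧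
      (∀ a ≤ 2 * L, w * (4 * L + 4) ≤ p a ∧ p a < (w + 1) * (4 * L + 4)) ∧
      (∀ a ≤ 2 * L, p a ∉ X) := by
  set W := Finset.Ico (w * (4 * L + 4)) ((w + 1) * (4 * L + 4)) with hW
  have hWc : W.card = 4 * L + 4 := by
    rw [hW, Nat.card_Ico, Nat.succ_mul]
    omega
  have hc : 2 * L + 1 ≤ (W \ X).card := by
    have h1 : (W \ X).card + (X ∩ W).card = 4 * L + 4 := by
      rw [← hWc, Finset.inter_comm]
      exact Finset.card_sdiff_add_card_inter _ _
    omega
  obtain ⟨p, hp, hp'⟩ := enum_of_card (W \ X) (2 * L) hc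
  refine ⟨p, hp, fun a ha => ?_, fun a ha => ?_⟩
  · have := hp' a ha
    rw [mem_sdiff, hW, mem_Ico] at this
    exact this.1
  · have := hp' a ha
    rw [mem_sdiff] at this
    exact this.2

theorem exists_good (L : ℕ) (bad : Row → Row → Prop) [DecidableRel bad]
    (hbad : 2 * ((S L (4*L+4) ×ˢ S L (4*L+4)).filter (fun xy => bad xy.1 xy.2)).card <
      (NN L (4*L+4)) ^ 2) :
    ∃ i < NN L (4*L+4), ∃ j < NN L (4*L+4), ∃ w < 2 ^ L, ∃ p q : ℕ → ℕ,
      (∀ a b, a < b → b ≤ 2*L → p a < p b) ∧ (∀ a b, a < b → b ≤ 2*L → q a < q b) ∧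
      (∀ a ≤ 2*L, w*(4*L+4) ≤ p a ∧ p a < (w+1)*(4*L+4)) ∧
      (∀ a ≤ 2*L, w*(4*L+4) ≤ q a ∧ q a < (w+1)*(4*L+4)) ∧
      (∀ f a f' a', f < 12 → f ≠ 8 → a < szA L (4*L+4) f → f' < 12 → f' ≠ 8 →
        a' < szA L (4*L+4) f' → ¬ bad (mk f a i) (mk f' a' j)) ∧
      (∀ s ≤ 2*L, ∀ m ≤ L, ∀ f' a', f' < 12 → f' ≠ 8 → a' < szA L (4*L+4) f' →
        ¬ bad (mk 8 (p s) m) (mk f' a' j)) ∧
      (∀ s ≤ 2*L, ∀ m ≤ L, ∀ f a, f < 12 → f ≠ 8 → a < szA L (4*L+4) f →
        ¬ bad (mk f a i) (mk 8 (q s) m)) := by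
  classical
  set n0 := 4 * L + 4 with hn0
  set N := NN L n0 with hN
  set D := (S L n0 ×ˢ S L n0).filter (fun xy => bad xy.1 xy.2) with hD
  set D1 := D.filter (fun xy => fam xy.1 ≠ 8 ∧ fam xy.2 ≠ 8) with hD1
  set D2 := D.filter (fun xy => fam xy.1 = 8 ∧ fam xy.2 ≠ 8) with hD2
  set D3 := D.filter (fun xy => fam xy.1 ≠ 8 ∧ fam xy.2 = 8) with hD3
  set X : ℕ → ℕ → ℕ := fun i j => (D1.filter (fun xy => (mnr xy.1, mnr xy.2) = (i, j))).card with hX
  set Y : ℕ → ℕ := fun j => (D2.filter (fun xy => mnr xy.2 = j)).card with hY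
  set Z : ℕ → ℕ := fun i => (D3.filter (fun xy => mnr xy.1 = i)).card with hZ
  have hmnr : ∀ x ∈ S L n0, fam x ≠ 8 → mnr x < N := by
    intro x hx h8
    rw [mem_S] at hx
    have := hx.2.2
    rw [szB, if_neg h8] at this
    exact this
  have c1 : D1.card = ∑ ij ∈ range N ×ˢ range N, X ij.1 ij.2 := by
    rw [Finset.card_eq_sum_card_fiberwise (f := fun xy => (mnr xy.1, mnr xy.2))
      (t := range N ×ˢ range N)]
    intro xy hxy
    simp only [hD1, hD, coe_filter, mem_filter, mem_product, Set.mem_ofPred_eq] at hxy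
    simp only [coe_product, Set.mem_prod, coe_range, Set.mem_Iio]
    exact ⟨hmnr _ hxy.1.1.1 hxy.2.1, hmnr _ hxy.1.1.2 hxy.2.2⟩
  have c2 : D2.card = ∑ j ∈ range N, Y j := by
    rw [Finset.card_eq_sum_card_fiberwise (f := fun xy => mnr xy.2) (t := range N)]
    intro xy hxy
    simp only [hD2, hD, coe_filter, mem_filter, mem_product, Set.mem_ofPred_eq] at hxy
    simp only [coe_range, Set.mem_Iio]
    exact hmnr _ hxy.1.1.2 hxy.2.2
  have c3 : D3.card = ∑ i ∈ range N, Z i := by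
    rw [Finset.card_eq_sum_card_fiberwise (f := fun xy => mnr xy.1) (t := range N)]
    intro xy hxy
    simp only [hD3, hD, coe_filter, mem_filter, mem_product, Set.mem_ofPred_eq] at hxy
    simp only [coe_range, Set.mem_Iio]
    exact hmnr _ hxy.1.1.1 hxy.2.1
  have c123 : D1.card + D2.card + D3.card ≤ D.card := by
    rw [← Finset.card_union_of_disjoint, ← Finset.card_union_of_disjoint]
    · apply Finset.card_le_card
      intro x hx
      simp only [hD1, hD2, hD3, mem_union, mem_filter] at hx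
      (clear * - hx; tauto)
    · rw [Finset.disjoint_left]
      intro x hx hx'
      simp only [hD1, hD2, hD3, mem_union, mem_filter] at hx hx'
      (clear * - hx hx'; tauto)
    · rw [Finset.disjoint_left]
      intro x hx hx'
      simp only [hD1, hD2, mem_filter] at hx hx'
      (clear * - hx hx'; tauto)
  have key : ∃ ij ∈ range N ×ˢ range N, 2 * (N * X ij.1 ij.2 + Y ij.2 + Z ij.1) < N := by
    apply Finset.exists_lt_of_sum_lt
    have e1 : ∑ ij ∈ range N ×ˢ range N, 2 * (N * X ij.1 ij.2 + Y ij.2 + Z ij.1)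
        = 2 * (N * D1.card + N * D2.card + N * D3.card) := by
      rw [← Finset.mul_sum, Finset.sum_add_distrib, Finset.sum_add_distrib, ← Finset.mul_sum, c1,
        c2, c3]
      congr 1
      congr 1
      · congr 1
        rw [Finset.sum_product]
        simp only [sum_const, card_range, smul_eq_mul]
      · rw [Finset.sum_product_right]
        simp only [sum_const, card_range, smul_eq_mul]
    rw [e1]
    simp only [sum_const, card_product, card_range, smul_eq_mul]
    have hNpos : 0 < N := by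
      rcases Nat.eq_zero_or_pos N with h | h
      · rw [h] at hbad
        simp at hbad
      · exact h
    calc 2 * (N * D1.card + N * D2.card + N * D3.card)
        = N * (2 * (D1.card + D2.card + D3.card)) := by ring
      _ ≤ N * (2 * D.card) := by (clear * - c123; gcongr)
      _ < N * N ^ 2 := Nat.mul_lt_mul_of_pos_left hbad hNpos
      _ = N * N * N := by ring
  obtain ⟨⟨i, j⟩, hij, hlt⟩ := key
  simp only [mem_product, mem_range] at hij hlt
  -- the bad positions
  set BR := (D2.filter (fun xy => mnr xy.2 = j)).image (fun xy => maj xy.1) with hBR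
  set BC := (D3.filter (fun xy => mnr xy.1 = i)).image (fun xy => maj xy.2) with hBC
  have hBRc : BR.card ≤ Y j := card_image_le
  have hBCc : BC.card ≤ Z i := card_image_le
  have hX0 : X i j = 0 := by
    by_contra hne
    have : N * 1 ≤ N * X i j := Nat.mul_le_mul_left _ (Nat.one_le_iff_ne_zero.2 hne)
    omega
  have hYZ : 2 * (BR.card + BC.card) < 2 ^ L * n0 := by
    have : N = 2 ^ L * n0 := by rw [hN, NN, mul_comm]
    rw [← this]
    have := Nat.zero_le (N * X i j)
    (clear hn0 hbad hD hD1 hD2 hD3 hX hY hZ hmnr c1 c2 c3 c123 hij hBR hBC hX0 this; omega)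
  obtain ⟨w, hw, hwin⟩ := window_avg (2 ^ L) n0 BR BC hYZ
  have hwin' : 2 * ((BR ∩ Finset.Ico (w * (4 * L + 4)) ((w + 1) * (4 * L + 4))).card +
      (BC ∩ Finset.Ico (w * (4 * L + 4)) ((w + 1) * (4 * L + 4))).card) < 4 * L + 4 := hwin
  obtain ⟨p, hp1, hp2, hp3⟩ := window_enum L w BR (by omega)
  obtain ⟨q, hq1, hq2, hq3⟩ := window_enum L w BC (by omega)
  have hlamS : ∀ w < 2 ^ L, ∀ x, x < (w + 1) * n0 → ∀ m ≤ L, mk 8 x m ∈ S L n0 := by
    intro w hw x hx m hm
    rw [mem_S]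
    simp only [fam_mk, maj_mk, mnr_mk]
    refine ⟨by norm_num, ?_, ?_⟩
    · have : szA L n0 8 = NN L n0 := rfl
      rw [this, NN]
      calc x < (w + 1) * n0 := hx
        _ ≤ 2 ^ L * n0 := Nat.mul_le_mul_right _ hw
        _ = n0 * 2 ^ L := mul_comm _ _
    · simp only [szB, if_true]
      omega
  have hnlS : ∀ f a b, f < 12 → f ≠ 8 → a < szA L n0 f → b < N → mk f a b ∈ S L n0 := by
    intro f a b hf hf8 ha hb
    rw [mem_S]
    simp only [fam_mk, maj_mk, mnr_mk]
    refine ⟨hf, ha, ?_⟩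
    rw [szB, if_neg hf8]
    exact hb
  refine ⟨i, hij.1, j, hij.2, w, hw, p, q, hp1, hq1, hp2, hq2, ?_, ?_, ?_⟩
  · intro f a f' a' hf hf8 ha hf' hf8' ha' hb
    have hmem : (mk f a i, mk f' a' j) ∈ D1.filter (fun xy => (mnr xy.1, mnr xy.2) = (i, j)) := by
      simp only [hD1, hD, mem_filter, mem_product]
      refine ⟨⟨⟨⟨hnlS _ _ _ hf hf8 ha hij.1, hnlS _ _ _ hf' hf8' ha' hij.2⟩, hb⟩, ?_⟩, ?_⟩
      · exact ⟨hf8, hf8'⟩
      · rfl
    have : 0 < X i j := Finset.card_pos.2 ⟨_, hmem⟩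
    omega
  · intro s hs m hm f' a' hf' hf8' ha' hb
    apply hp3 s hs
    rw [hBR, mem_image]
    refine ⟨(mk 8 (p s) m, mk f' a' j), ?_, rfl⟩
    simp only [hD2, hD, mem_filter, mem_product]
    exact ⟨⟨⟨⟨hlamS w hw _ (hp2 s hs).2 m hm, hnlS _ _ _ hf' hf8' ha' hij.2⟩, hb⟩, rfl, hf8'⟩, rfl⟩
  · intro s hs m hm f a hf hf8 ha hb
    apply hq3 s hs
    rw [hBC, mem_image]
    refine ⟨(mk f a i, mk 8 (q s) m), ?_, rfl⟩
    simp only [hD3, hD, mem_filter, mem_product]
    exact ⟨⟨⟨⟨hnlS _ _ _ hf hf8 ha hij.1, hlamS w hw _ (hq2 s hs).2 m hm⟩, hb⟩, hf8, rfl⟩, rfl⟩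

end Vale.Agent.P037
end
end

section

section

/-!
The deterministic part of the lower bound for the distance: inside a good window every filling
of the block leads to a copy of `H`.
-/

namespace Vale.Agent.P037

/-- assembling a map from the indices of `H` to rows -/
def bld (i : ℕ) (R R' X Z Y : Row) (h : Fin 49) : Row :=
  if h.1 < 44 then mk 0 h.1 i else if h.1 = 44 then R else if h.1 = 45 then R'
  else if h.1 = 46 then X else if h.1 = 47 then Z else Y

theorem bld_strictMono (i : ℕ) {R R' X Z Y : Row} (h0 : 1 ≤ fam R) (h1 : R < R') (h2 : R' < X)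
    (h3 : X < Z) (h4 : Z < Y) : StrictMono (bld i R R' X Z Y) := by
  have hR : ∀ a : ℕ, mk 0 a i < R := by
    intro a; rw [lt_iff]; left; rw [fam_mk]; omega
  intro h h' hlt
  have hlt' : h.1 < h'.1 := hlt
  have hh' := h'.2
  unfold bld
  split_ifs with c1 c2 c3 c4 c5 c6 c7 c8 c9 c10 c11 c12 c13 c14 c15 c16 c17 c18 c19 c20 c21 c22 c23
      c24 c25 c26 c27 c28 c29 c30 <;>
    first
    | (exfalso; omega)
    | (rw [mk_lt_iff]; omega)
    | exact hR _
    | exact (hR _).trans h1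
    | exact ((hR _).trans h1).trans h2
    | exact (((hR _).trans h1).trans h2).trans h3
    | exact ((((hR _).trans h1).trans h2).trans h3).trans h4
    | exact h1
    | exact h1.trans h2
    | exact (h1.trans h2).trans h3
    | exact ((h1.trans h2).trans h3).trans h4
    | exact h2
    | exact h2.trans h3
    | exact (h2.trans h3).trans h4
    | exact h3
    | exact h3.trans h4
    | exact h4

theorem bld_forall (i : ℕ) {R R' X Z Y : Row} {P : Row → Prop} (h0 : ∀ a < 44, P (mk 0 a i))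
    (h1 : P R) (h2 : P R') (h3 : P X) (h4 : P Z) (h5 : P Y) (h : Fin 49) :
    P (bld i R R' X Z Y h) := by
  unfold bld
  split_ifs with c1 c2 c3 c4 c5
  · exact h0 _ c1
  · exact h1
  · exact h2
  · exact h3
  · exact h4
  · exact h5

theorem bld_lt {i : ℕ} {R R' X Z Y : Row} {h : Fin 49} (hh : h.1 < 44) :
    bld i R R' X Z Y h = mk 0 h.1 i := by
  unfold bld; rw [if_pos hh]

theorem Pat_aa {h h' : ℕ} (h1 : h < 44) (h2 : h' < 44) : Pat h h' ↔ 44 ≤ h + h' := by
  have e1 : h ≠ 44 := by omega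
  have e2 : h ≠ 45 := by omega
  have e3 : h ≠ 46 := by omega
  have e4 : h ≠ 48 := by omega
  have e5 : h' ≠ 44 := by omega
  have e6 : h' ≠ 45 := by omega
  have e7 : h' ≠ 46 := by omega
  have e8 : h' ≠ 47 := by omega
  have e9 : h' ≠ 48 := by omega
  simp only [Pat, PatF, h1, h2, e1, e2, e3, e4, e5, e6, e7, e8, e9, true_and, and_false,
    false_and, or_false, and_self]
  omega

theorem Pat_a44 {h : ℕ} (h1 : h < 44) : Pat h 44 ↔ h < 1 := by
  simp only [Pat, PatF, lt_self_iff_false, le_add_iff_nonneg_left, zero_le, and_true, and_false, Order.lt_one_iff, Order.lt_two_iff, Nat.reduceEqDiff, or_self, or_false, false_or, le_add_iff_nonneg_right, false_and, Nat.not_ofNat_lt_one, Nat.not_ofNat_le_one, true_and]; omega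

theorem Pat_a45 {h : ℕ} (h1 : h < 44) : Pat h 45 ↔ h < 2 := by
  simp only [Pat, PatF, Nat.reduceLT, le_add_iff_nonneg_left, zero_le, and_true, and_false, Order.lt_one_iff, Nat.succ_ne_self, Order.lt_two_iff, Nat.reduceEqDiff, or_self, or_false, false_or, false_and, Nat.not_ofNat_lt_one, Nat.not_ofNat_le_one, true_and]; omega

theorem Pat_a46 {h : ℕ} (h1 : h < 44) : ¬ Pat h 46 := by
  simp only [Pat, PatF, Nat.reduceLT, le_add_iff_nonneg_left, zero_le, and_true, and_false, Order.lt_one_iff, Nat.reduceEqDiff, Order.lt_two_iff, Nat.succ_ne_self, or_self, or_false, false_or, false_and, Nat.not_ofNat_lt_one, Nat.not_ofNat_le_one, true_and, not_or]; omega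

theorem Pat_a47 {h : ℕ} (h1 : h < 44) : ¬ Pat h 47 := by
  simp only [Pat, PatF, Nat.reduceLT, le_add_iff_nonneg_left, zero_le, and_true, and_false, Order.lt_one_iff, Nat.reduceEqDiff, Order.lt_two_iff, Nat.succ_ne_self, or_self, or_false, false_or, false_and, Nat.not_ofNat_lt_one, Nat.not_ofNat_le_one]; omega

theorem Pat_a48 {h : ℕ} (h1 : h < 44) : ¬ Pat h 48 := by
  simp only [Pat, PatF, Nat.reduceLT, le_add_iff_nonneg_left, zero_le, and_true, and_false, Order.lt_one_iff, Nat.reduceEqDiff, Order.lt_two_iff, Nat.succ_ne_self, false_or, false_and, Nat.not_ofNat_lt_one, Nat.not_ofNat_le_one, true_and, not_or]; omega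

theorem Ent_aa (L n0 a b a' b' : ℕ) : Ent L n0 (mk 0 a b) (mk 0 a' b') ↔ 44 ≤ a + a' := by
  simp only [Ent, Fwd, fam_mk, maj_mk, true_and, nonpos_iff_eq_zero, one_ne_zero, zero_le, Order.lt_one_iff, false_and, and_false, OfNat.ofNat_ne_zero, Order.lt_two_iff, zero_ne_one, and_self, OfNat.zero_ne_ofNat, ne_eq, mnr_mk, or_self, or_false, or_iff_left_iff_imp]; omega

theorem Ent_aR (L n0 a b : ℕ) {y : Row} (h1 : 1 ≤ fam y) (h2 : fam y ≤ 3) :
    Ent L n0 (mk 0 a b) y ↔ a < 1 := by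
  have e0 : fam y ≠ 0 := by omega
  have : fam y = 1 ∨ fam y = 2 ∨ fam y = 3 := by omega
  rcases this with h | h | h <;> simp [Ent, Fwd, h]

theorem Ent_aR' (L n0 a b : ℕ) {y : Row} (h1 : 4 ≤ fam y) (h2 : fam y ≤ 6) :
    Ent L n0 (mk 0 a b) y ↔ a < 2 := by
  have : fam y = 4 ∨ fam y = 5 ∨ fam y = 6 := by omega
  rcases this with h | h | h <;> simp [Ent, Fwd, h]

theorem Ent_aK (L n0 a b : ℕ) {y : Row} (h1 : 7 ≤ fam y) : ¬ Ent L n0 (mk 0 a b) y := by
  have e0 : fam y ≠ 0 := by omega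
  have e3 : ¬ fam y ≤ 3 := by omega
  have e6 : ¬ fam y ≤ 6 := by omega
  simp only [Ent, Fwd, fam_mk, e0, maj_mk, false_and, and_false, e3, Order.lt_one_iff, e6, Order.lt_two_iff, zero_ne_one, OfNat.zero_ne_ofNat, ne_eq, mnr_mk, or_self, true_and, nonpos_iff_eq_zero, one_ne_zero, zero_le, and_self, OfNat.ofNat_ne_zero, not_false_eq_true]

/-- entries with at least one anchor -/
theorem ent_pat_anch (L n0 i j : ℕ) {R R' X Z Y c c' x z y : Row}
    (hR : 1 ≤ fam R ∧ fam R ≤ 3) (hR' : 4 ≤ fam R' ∧ fam R' ≤ 6) (hX : 7 ≤ fam X)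
    (hZ : 7 ≤ fam Z) (hY : 7 ≤ fam Y)
    (hc : 1 ≤ fam c ∧ fam c ≤ 3) (hc' : 4 ≤ fam c' ∧ fam c' ≤ 6) (hx : 7 ≤ fam x)
    (hz : 7 ≤ fam z) (hy : 7 ≤ fam y) (h h' : Fin 49) (hh : h.1 < 44 ∨ h'.1 < 44) :
    Ent L n0 (bld i R R' X Z Y h) (bld j c c' x z y h') ↔ Pat h.1 h'.1 := by
  have h1 := h.2
  have h2 := h'.2
  rcases lt_or_ge h.1 44 with ha | ha
  · rw [bld_lt ha]
    unfold bld
    split_ifs with c1 c2 c3 c4 c5
    · rw [Ent_aa, Pat_aa ha c1]
    · rw [Ent_aR L n0 _ _ hc.1 hc.2, c2, Pat_a44 ha]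
    · rw [Ent_aR' L n0 _ _ hc'.1 hc'.2, c3, Pat_a45 ha]
    · rw [c4]; exact iff_of_false (Ent_aK L n0 _ _ hx) (Pat_a46 ha)
    · rw [c5]; exact iff_of_false (Ent_aK L n0 _ _ hz) (Pat_a47 ha)
    · have : h'.1 = 48 := by (clear * - h2 c1 c2 c3 c4 c5; omega)
      rw [this]; exact iff_of_false (Ent_aK L n0 _ _ hy) (Pat_a48 ha)
  · have hb : h'.1 < 44 := by omega
    rw [bld_lt hb, Ent_comm, Pat_comm]
    unfold bld
    split_ifs with c1 c2 c3 c4 c5
    · omega
    · rw [Ent_aR L n0 _ _ hR.1 hR.2, c2, Pat_a44 hb]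
    · rw [Ent_aR' L n0 _ _ hR'.1 hR'.2, c3, Pat_a45 hb]
    · rw [c4]; exact iff_of_false (Ent_aK L n0 _ _ hX) (Pat_a46 hb)
    · rw [c5]; exact iff_of_false (Ent_aK L n0 _ _ hZ) (Pat_a47 hb)
    · have : h.1 = 48 := by omega
      rw [this]; exact iff_of_false (Ent_aK L n0 _ _ hY) (Pat_a48 hb)

/-- the 25 remaining entries -/
theorem rel_pat (β : Row → Row → Prop) (i j : ℕ) {R R' X Z Y c c' x z y : Row}
    (hRc : β R c) (hRc' : β R c') (hRx : β R x) (hRz : ¬ β R z) (hRy : β R y)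
    (hR'c : β R' c) (hR'c' : β R' c') (hR'x : ¬ β R' x) (hR'z : β R' z) (hR'y : ¬ β R' y)
    (hXc : β X c) (hXc' : ¬ β X c') (hXx : β X x) (hXz : ¬ β X z) (hXy : β X y)
    (hZc : ¬ β Z c) (hZc' : β Z c') (hZx : ¬ β Z x) (hZz : ¬ β Z z) (hZy : ¬ β Z y)
    (hYc : β Y c) (hYc' : ¬ β Y c') (hYx : β Y x) (hYz : ¬ β Y z) (hYy : β Y y)
    (h h' : Fin 49) (ha : 44 ≤ h.1) (hb : 44 ≤ h'.1) :
    β (bld i R R' X Z Y h) (bld j c c' x z y h') ↔ Pat h.1 h'.1 := by
  have P : ∀ {a b : ℕ}, Pat a b → ∀ {q : Prop}, q → (q ↔ Pat a b) := fun h _ hq => iff_of_true hq h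
  have Q : ∀ {a b : ℕ}, ¬ Pat a b → ∀ {q : Prop}, ¬ q → (q ↔ Pat a b) :=
    fun h _ hq => iff_of_false hq h
  obtain ⟨h, h1⟩ := h
  obtain ⟨h', h2⟩ := h'
  simp only at ha hb ⊢
  have e1 : h = 44 ∨ h = 45 ∨ h = 46 ∨ h = 47 ∨ h = 48 := by omega
  have e2 : h' = 44 ∨ h' = 45 ∨ h' = 46 ∨ h' = 47 ∨ h' = 48 := by (clear * - h2 hb; omega)
  rcases e1 with rfl | rfl | rfl | rfl | rfl <;> rcases e2 with rfl | rfl | rfl | rfl | rfl
  · exact P (by decide) hRc
  · exact P (by decide) hRc'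
  · exact P (by decide) hRx
  · exact Q (by decide) hRz
  · exact P (by decide) hRy
  · exact P (by decide) hR'c
  · exact P (by decide) hR'c'
  · exact Q (by decide) hR'x
  · exact P (by decide) hR'z
  · exact Q (by decide) hR'y
  · exact P (by decide) hXc
  · exact Q (by decide) hXc'
  · exact P (by decide) hXx
  · exact Q (by decide) hXz
  · exact P (by decide) hXy
  · exact Q (by decide) hZc
  · exact P (by decide) hZc'
  · exact Q (by decide) hZx
  · exact Q (by decide) hZz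
  · exact Q (by decide) hZy
  · exact P (by decide) hYc
  · exact Q (by decide) hYc'
  · exact P (by decide) hYx
  · exact Q (by decide) hYz
  · exact P (by decide) hYy

/-- a copy of the pattern in the relation `β` -/
def HasCopy (L n0 : ℕ) (β : Row → Row → Prop) : Prop :=
  ∃ u v : Fin 49 → Row, StrictMono u ∧ StrictMono v ∧ (∀ h, u h ∈ S L n0) ∧
    (∀ h, v h ∈ S L n0) ∧ ∀ h h' : Fin 49, β (u h) (v h') ↔ Pat h.1 h'.1

/-- the good rows -/
def GR (L n0 i : ℕ) (p : ℕ → ℕ) (x : Row) : Prop :=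
  x ∈ S L n0 ∧ ((fam x ≠ 8 ∧ mnr x = i) ∨ (fam x = 8 ∧ ∃ s ≤ 2 * L, maj x = p s))

theorem GR_mk {L n0 i : ℕ} {p : ℕ → ℕ} (hi : i < NN L n0) {f a : ℕ} (hf : f < 12) (hf8 : f ≠ 8)
    (ha : a < szA L n0 f) : GR L n0 i p (mk f a i) := by
  refine ⟨?_, Or.inl ⟨by simpa using hf8, rfl⟩⟩
  rw [mem_S]
  refine ⟨by simpa using hf, by simpa using ha, ?_⟩
  simp [szB, hf8, hi]

theorem GR_lam {L n0 i : ℕ} {p : ℕ → ℕ} (hp : ∀ s ≤ 2 * L, p s < NN L n0) {s m : ℕ}
    (hs : s ≤ 2 * L) (hm : m ≤ L) : GR L n0 i p (mk 8 (p s) m) := by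
  refine ⟨?_, Or.inr ⟨rfl, s, hs, rfl⟩⟩
  rw [mem_S]
  refine ⟨by simp, ?_, ?_⟩
  · simpa only [maj_mk, szA, fam_mk, OfNat.ofNat_ne_zero, ↓reduceIte, OfNat.ofNat_ne_one, Nat.reduceEqDiff] using     hp s hs
  · simp only [mnr_mk, szB, fam_mk, ↓reduceIte, Order.lt_add_one_iff]; omega

theorem copy_of {L n0 i j : ℕ} {p q : ℕ → ℕ} {β : Row → Row → Prop}
    (hi : i < NN L n0) (hj : j < NN L n0)
    (hβ : ∀ x y, GR L n0 i p x → GR L n0 j q y → (fam x ≠ 8 ∨ fam y ≠ 8) →
      (β x y ↔ Ent L n0 x y))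
    {R R' X Z Y c c' x z y : Row}
    (gR : GR L n0 i p R) (gR' : GR L n0 i p R') (gX : GR L n0 i p X) (gZ : GR L n0 i p Z)
    (gY : GR L n0 i p Y)
    (gc : GR L n0 j q c) (gc' : GR L n0 j q c') (gx : GR L n0 j q x) (gz : GR L n0 j q z)
    (gy : GR L n0 j q y)
    (hR : 1 ≤ fam R ∧ fam R ≤ 3) (hR' : 4 ≤ fam R' ∧ fam R' ≤ 6) (hX : 7 ≤ fam X)
    (hXZ : X < Z) (hZY : Z < Y)
    (hc : 1 ≤ fam c ∧ fam c ≤ 3) (hc' : 4 ≤ fam c' ∧ fam c' ≤ 6) (hx : 7 ≤ fam x)
    (hxz : x < z) (hzy : z < y)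
    (hRc : β R c) (hRc' : β R c') (hRx : β R x) (hRz : ¬ β R z) (hRy : β R y)
    (hR'c : β R' c) (hR'c' : β R' c') (hR'x : ¬ β R' x) (hR'z : β R' z) (hR'y : ¬ β R' y)
    (hXc : β X c) (hXc' : ¬ β X c') (hXx : β X x) (hXz : ¬ β X z) (hXy : β X y)
    (hZc : ¬ β Z c) (hZc' : β Z c') (hZx : ¬ β Z x) (hZz : ¬ β Z z) (hZy : ¬ β Z y)
    (hYc : β Y c) (hYc' : ¬ β Y c') (hYx : β Y x) (hYz : ¬ β Y z) (hYy : β Y y) :
    HasCopy L n0 β := by
  have gA : ∀ a < 44, GR L n0 i p (mk 0 a i) := fun a ha =>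
    GR_mk hi (by norm_num) (by norm_num) (by simpa [szA] using ha)
  have gA' : ∀ a < 44, GR L n0 j q (mk 0 a j) := fun a ha =>
    GR_mk hj (by norm_num) (by norm_num) (by simpa [szA] using ha)
  have hZ : 7 ≤ fam Z := le_trans hX (fam_mono hXZ)
  have hY : 7 ≤ fam Y := le_trans hZ (fam_mono hZY)
  have hz : 7 ≤ fam z := le_trans hx (fam_mono hxz)
  have hy : 7 ≤ fam y := le_trans hz (fam_mono hzy)
  have gu : ∀ h, GR L n0 i p (bld i R R' X Z Y h) := bld_forall i gA gR gR' gX gZ gY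
  have gv : ∀ h, GR L n0 j q (bld j c c' x z y h) := bld_forall j gA' gc gc' gx gz gy
  refine ⟨bld i R R' X Z Y, bld j c c' x z y, ?_, ?_, fun h => (gu h).1, fun h => (gv h).1, ?_⟩
  · refine bld_strictMono i hR.1 ?_ ?_ hXZ hZY
    · rw [lt_iff]; left; omega
    · rw [lt_iff]; left; omega
  · refine bld_strictMono j hc.1 ?_ ?_ hxz hzy
    · rw [lt_iff]; left; omega
    · rw [lt_iff]; left; omega
  · intro h h'
    by_cases hh : h.1 < 44 ∨ h'.1 < 44
    · rw [hβ _ _ (gu h) (gv h')]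
      · exact ent_pat_anch L n0 i j hR hR' hX hZ hY hc hc' hx hz hy h h' hh
      · rcases hh with hh | hh
        · left; rw [bld_lt hh]; simp
        · right; rw [bld_lt hh]; simp
    · push Not at hh
      exact rel_pat β i j hRc hRc' hRx hRz hRy hR'c hR'c' hR'x hR'z hR'y hXc hXc' hXx hXz hXy
        hZc hZc' hZx hZz hZy hYc hYc' hYx hYz hYy h h' hh.1 hh.2

theorem K3 {L n0 i j : ℕ} {p q : ℕ → ℕ} {β : Row → Row → Prop}
    (hi : i < NN L n0) (hj : j < NN L n0)
    (hp : ∀ s ≤ 2 * L, p s < NN L n0) (hq : ∀ s ≤ 2 * L, q s < NN L n0)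
    (hβ : ∀ x y, GR L n0 i p x → GR L n0 j q y → (fam x ≠ 8 ∨ fam y ≠ 8) →
      (β x y ↔ Ent L n0 x y)) {s t : ℕ} (hs : s ≤ 2 * L) (ht : t ≤ 2 * L)
    (hn : ¬ β (mk 8 (p s) 0) (mk 8 (q t) 0)) : HasCopy L n0 β := by
  have g3 : GR L n0 i p (mk 3 0 i) := GR_mk hi (by norm_num) (by norm_num) (by simp only [szA, OfNat.ofNat_ne_zero, ↓reduceIte, OfNat.ofNat_ne_one, Nat.succ_ne_self, Nat.reduceEqDiff, Nat.reduceLT, Order.lt_one_iff])
  have g6 : GR L n0 i p (mk 6 0 i) := GR_mk hi (by norm_num) (by norm_num) (by simp only [szA, OfNat.ofNat_ne_zero, ↓reduceIte, OfNat.ofNat_ne_one, Nat.reduceEqDiff, Nat.reduceLT, Order.lt_one_iff])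
  have g7 : GR L n0 i p (mk 7 0 i) := GR_mk hi (by norm_num) (by norm_num) (by simp only [szA, OfNat.ofNat_ne_zero, ↓reduceIte, OfNat.ofNat_ne_one, Nat.reduceEqDiff, Nat.reduceLT, Order.lt_one_iff])
  have g11 : GR L n0 i p (mk 11 0 i) := GR_mk hi (by norm_num) (by norm_num) (by simp only [szA, OfNat.ofNat_ne_zero, ↓reduceIte, OfNat.ofNat_ne_one, Nat.reduceEqDiff, Nat.lt_add_one, Order.lt_one_iff])
  have g8 : GR L n0 i p (mk 8 (p s) 0) := GR_lam hp hs (by (clear * -; omega))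
  have k3 : GR L n0 j q (mk 3 0 j) := GR_mk hj (by norm_num) (by norm_num) (by simp only [szA, OfNat.ofNat_ne_zero, ↓reduceIte, OfNat.ofNat_ne_one, Nat.succ_ne_self, Nat.reduceEqDiff, Nat.reduceLT, Order.lt_one_iff])
  have k6 : GR L n0 j q (mk 6 0 j) := GR_mk hj (by norm_num) (by norm_num) (by simp only [szA, OfNat.ofNat_ne_zero, ↓reduceIte, OfNat.ofNat_ne_one, Nat.reduceEqDiff, Nat.reduceLT, Order.lt_one_iff])
  have k7 : GR L n0 j q (mk 7 0 j) := GR_mk hj (by norm_num) (by norm_num) (by simp only [szA, OfNat.ofNat_ne_zero, ↓reduceIte, OfNat.ofNat_ne_one, Nat.reduceEqDiff, Nat.reduceLT, Order.lt_one_iff])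
  have k11 : GR L n0 j q (mk 11 0 j) := GR_mk hj (by norm_num) (by norm_num) (by simp only [szA, OfNat.ofNat_ne_zero, ↓reduceIte, OfNat.ofNat_ne_one, Nat.reduceEqDiff, Nat.lt_add_one, Order.lt_one_iff])
  have k8 : GR L n0 j q (mk 8 (q t) 0) := GR_lam hq ht (by omega)
  refine copy_of hi hj hβ g3 g6 g7 g8 g11 k3 k6 k7 k8 k11 (by simp only [fam_mk, Nat.one_le_ofNat, Std.le_refl, and_self]) (by simp) (by simp)
    (by rw [mk_lt_iff]; omega) (by rw [mk_lt_iff]; omega) (by simp) (by simp) (by simp)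
    (by rw [mk_lt_iff]; omega) (by rw [mk_lt_iff]; omega)
    ?_ ?_ ?_ ?_ ?_ ?_ ?_ ?_ ?_ ?_ ?_ ?_ ?_ ?_ ?_ ?_ ?_ ?_ hn ?_ ?_ ?_ ?_ ?_ ?_
  · rw [hβ _ _ g3 k3 (by simp)]; simp only [Ent, Fwd, fam_mk, OfNat.ofNat_ne_zero, maj_mk, add_zero, nonpos_iff_eq_zero, and_self, Nat.one_le_ofNat, Std.le_refl, Order.lt_one_iff, and_true, Nat.reduceLeDiff, Order.lt_two_iff, zero_le, OfNat.ofNat_ne_one, Nat.reduceEqDiff, Nat.zero_div, Nat.succ_ne_self, ne_eq, not_true_eq_false, false_or, false_and, and_false, mnr_mk, zero_add, Nat.zero_mod, or_self, or_false, or_true]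
  · rw [hβ _ _ g3 k6 (by simp)]; simp only [Ent, Fwd, fam_mk, OfNat.ofNat_ne_zero, maj_mk, add_zero, nonpos_iff_eq_zero, and_self, Nat.one_le_ofNat, Nat.reduceLeDiff, Order.lt_one_iff, and_true, and_false, Std.le_refl, Order.lt_two_iff, zero_le, OfNat.ofNat_ne_one, Nat.reduceEqDiff, Nat.zero_div, Nat.succ_ne_self, ne_eq, not_true_eq_false, false_or, false_and, mnr_mk, zero_add, Nat.zero_mod, or_self, or_false, or_true]
  · rw [hβ _ _ g3 k7 (by simp)]; simp [Ent, Fwd]
  · rw [hβ _ _ g3 k8 (by simp)]; simp only [Ent, Fwd, fam_mk, OfNat.ofNat_ne_zero, maj_mk, zero_add, false_and, and_self, Nat.one_le_ofNat, Nat.reduceLeDiff, Order.lt_one_iff, and_true, and_false, Order.lt_two_iff, zero_le, OfNat.ofNat_ne_one, Nat.reduceEqDiff, Nat.div_eq_zero_iff, false_or, Nat.succ_ne_self, ne_eq, mnr_mk, Nat.zero_div, one_ne_zero, Nat.zero_mod, true_and, or_self, add_zero, Std.le_refl, not_false_eq_true]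
  · rw [hβ _ _ g3 k11 (by simp)]; simp only [Ent, Fwd, fam_mk, OfNat.ofNat_ne_zero, maj_mk, add_zero, nonpos_iff_eq_zero, and_self, Nat.one_le_ofNat, Nat.reduceLeDiff, Order.lt_one_iff, and_true, and_false, Order.lt_two_iff, zero_le, OfNat.ofNat_ne_one, Nat.reduceEqDiff, Nat.zero_div, Nat.succ_ne_self, ne_eq, not_true_eq_false, false_or, false_and, mnr_mk, zero_add, Nat.zero_mod, or_self, or_false, or_true, Std.le_refl]
  · rw [hβ _ _ g6 k3 (by simp)]; simp [Ent, Fwd]
  · rw [hβ _ _ g6 k6 (by simp)]; simp only [Ent, Fwd, fam_mk, OfNat.ofNat_ne_zero, maj_mk, add_zero, nonpos_iff_eq_zero, and_self, Nat.one_le_ofNat, Nat.reduceLeDiff, Order.lt_one_iff, and_true, and_false, Std.le_refl, Order.lt_two_iff, zero_le, OfNat.ofNat_ne_one, Nat.reduceEqDiff, Nat.zero_div, ne_eq, not_true_eq_false, false_or, false_and, Nat.succ_ne_self, mnr_mk, zero_add, Nat.zero_mod, or_self, or_false, or_true]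
  · rw [hβ _ _ g6 k7 (by simp)]; simp only [Ent, Fwd, fam_mk, OfNat.ofNat_ne_zero, maj_mk, add_zero, nonpos_iff_eq_zero, and_self, Nat.one_le_ofNat, Nat.reduceLeDiff, Order.lt_one_iff, and_true, and_false, Order.lt_two_iff, zero_le, OfNat.ofNat_ne_one, Nat.reduceEqDiff, Nat.zero_div, ne_eq, not_true_eq_false, false_or, false_and, Nat.succ_ne_self, mnr_mk, zero_add, Nat.zero_mod, or_self, Std.le_refl, not_false_eq_true]
  · rw [hβ _ _ g6 k8 (by simp)]; simp only [Ent, Fwd, fam_mk, OfNat.ofNat_ne_zero, maj_mk, zero_add, false_and, and_self, Nat.one_le_ofNat, Nat.reduceLeDiff, Order.lt_one_iff, and_true, and_false, Order.lt_two_iff, zero_le, OfNat.ofNat_ne_one, Nat.reduceEqDiff, Nat.div_eq_zero_iff, false_or, ne_eq, Nat.succ_ne_self, mnr_mk, Nat.zero_div, one_ne_zero, Nat.zero_mod, true_and, or_self, or_false, or_true, add_zero, Std.le_refl]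
  · rw [hβ _ _ g6 k11 (by simp)]; simp only [Ent, Fwd, fam_mk, OfNat.ofNat_ne_zero, maj_mk, add_zero, nonpos_iff_eq_zero, and_self, Nat.one_le_ofNat, Nat.reduceLeDiff, Order.lt_one_iff, and_true, and_false, Order.lt_two_iff, zero_le, OfNat.ofNat_ne_one, Nat.reduceEqDiff, Nat.zero_div, ne_eq, not_true_eq_false, false_or, false_and, Nat.succ_ne_self, mnr_mk, zero_add, Nat.zero_mod, or_self, Std.le_refl, not_false_eq_true]
  · rw [hβ _ _ g7 k3 (by simp)]; simp only [Ent, Fwd, fam_mk, OfNat.ofNat_ne_zero, maj_mk, add_zero, nonpos_iff_eq_zero, and_self, Nat.one_le_ofNat, Std.le_refl, Order.lt_one_iff, and_true, Nat.reduceLeDiff, Order.lt_two_iff, zero_le, OfNat.ofNat_ne_one, Nat.reduceEqDiff, Nat.zero_div, Nat.succ_ne_self, ne_eq, not_true_eq_false, false_or, false_and, mnr_mk, zero_add, Nat.zero_mod, and_false, or_self, or_false, or_true]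
  · rw [hβ _ _ g7 k6 (by simp)]; simp only [Ent, Fwd, fam_mk, OfNat.ofNat_ne_zero, maj_mk, add_zero, nonpos_iff_eq_zero, and_self, Nat.one_le_ofNat, Nat.reduceLeDiff, Order.lt_one_iff, and_true, and_false, Std.le_refl, Order.lt_two_iff, zero_le, OfNat.ofNat_ne_one, Nat.reduceEqDiff, Nat.zero_div, ne_eq, not_true_eq_false, false_or, false_and, Nat.succ_ne_self, mnr_mk, zero_add, Nat.zero_mod, or_self, not_false_eq_true]
  · rw [hβ _ _ g7 k7 (by simp)]; simp only [Ent, Fwd, fam_mk, OfNat.ofNat_ne_zero, maj_mk, add_zero, nonpos_iff_eq_zero, and_self, Nat.one_le_ofNat, Nat.reduceLeDiff, Order.lt_one_iff, and_true, and_false, Order.lt_two_iff, zero_le, OfNat.ofNat_ne_one, Nat.reduceEqDiff, Nat.zero_div, ne_eq, not_true_eq_false, false_or, false_and, Nat.succ_ne_self, mnr_mk, zero_add, Nat.zero_mod, or_self, or_false, or_true]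
  · rw [hβ _ _ g7 k8 (by simp)]; simp only [Ent, Fwd, fam_mk, OfNat.ofNat_ne_zero, maj_mk, zero_add, false_and, and_self, Nat.one_le_ofNat, Nat.reduceLeDiff, Order.lt_one_iff, and_true, and_false, Order.lt_two_iff, zero_le, OfNat.ofNat_ne_one, Nat.reduceEqDiff, Nat.div_eq_zero_iff, false_or, ne_eq, Nat.succ_ne_self, mnr_mk, Nat.zero_div, one_ne_zero, Nat.zero_mod, true_and, or_self, add_zero, not_false_eq_true]
  · rw [hβ _ _ g7 k11 (by simp)]; simp only [Ent, Fwd, fam_mk, OfNat.ofNat_ne_zero, maj_mk, add_zero, nonpos_iff_eq_zero, and_self, Nat.one_le_ofNat, Nat.reduceLeDiff, Order.lt_one_iff, and_true, and_false, Order.lt_two_iff, zero_le, OfNat.ofNat_ne_one, Nat.reduceEqDiff, Nat.zero_div, ne_eq, not_true_eq_false, false_or, false_and, Nat.succ_ne_self, mnr_mk, zero_add, Nat.zero_mod, or_false, or_true, or_self]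
  · rw [hβ _ _ g8 k3 (by simp)]; simp only [Ent, Fwd, fam_mk, OfNat.ofNat_ne_zero, maj_mk, add_zero, false_and, and_self, Nat.one_le_ofNat, Std.le_refl, Order.lt_one_iff, true_and, Nat.reduceLeDiff, Order.lt_two_iff, OfNat.ofNat_ne_one, Nat.reduceEqDiff, Nat.zero_div, Nat.succ_ne_self, ne_eq, and_true, mnr_mk, and_false, or_self, zero_add, zero_le, Nat.div_eq_zero_iff, false_or, one_ne_zero, Nat.zero_mod, not_false_eq_true]
  · rw [hβ _ _ g8 k6 (by simp)]; simp only [Ent, Fwd, fam_mk, OfNat.ofNat_ne_zero, maj_mk, add_zero, false_and, and_self, Nat.one_le_ofNat, Nat.reduceLeDiff, Order.lt_one_iff, and_false, Std.le_refl, Order.lt_two_iff, true_and, OfNat.ofNat_ne_one, Nat.reduceEqDiff, Nat.zero_div, ne_eq, Nat.succ_ne_self, and_true, mnr_mk, or_self, zero_add, zero_le, Nat.div_eq_zero_iff, false_or, one_ne_zero, Nat.zero_mod, or_false, or_true]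
  · rw [hβ _ _ g8 k7 (by simp)]; simp only [Ent, Fwd, fam_mk, OfNat.ofNat_ne_zero, maj_mk, add_zero, false_and, and_self, Nat.one_le_ofNat, Nat.reduceLeDiff, Order.lt_one_iff, and_false, Order.lt_two_iff, OfNat.ofNat_ne_one, Nat.reduceEqDiff, Nat.zero_div, ne_eq, Nat.succ_ne_self, mnr_mk, and_true, or_self, zero_add, zero_le, Nat.div_eq_zero_iff, false_or, one_ne_zero, Nat.zero_mod, true_and, not_false_eq_true]
  · rw [hβ _ _ g8 k11 (by simp)]; simp only [Ent, Fwd, fam_mk, OfNat.ofNat_ne_zero, maj_mk, add_zero, false_and, and_self, Nat.one_le_ofNat, Nat.reduceLeDiff, Order.lt_one_iff, and_false, Order.lt_two_iff, OfNat.ofNat_ne_one, Nat.reduceEqDiff, Nat.zero_div, ne_eq, mnr_mk, Nat.succ_ne_self, and_true, or_self, zero_add, zero_le, Nat.div_eq_zero_iff, false_or, one_ne_zero, Nat.zero_mod, true_and, not_false_eq_true]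
  · rw [hβ _ _ g11 k3 (by simp)]; simp only [Ent, Fwd, fam_mk, OfNat.ofNat_ne_zero, maj_mk, add_zero, nonpos_iff_eq_zero, and_self, Nat.one_le_ofNat, Std.le_refl, Order.lt_one_iff, and_true, Nat.reduceLeDiff, Order.lt_two_iff, zero_le, OfNat.ofNat_ne_one, Nat.reduceEqDiff, Nat.zero_div, Nat.succ_ne_self, ne_eq, not_true_eq_false, false_or, false_and, mnr_mk, zero_add, Nat.zero_mod, and_false, or_self, or_false, or_true]
  · rw [hβ _ _ g11 k6 (by simp)]; simp only [Ent, Fwd, fam_mk, OfNat.ofNat_ne_zero, maj_mk, add_zero, nonpos_iff_eq_zero, and_self, Nat.one_le_ofNat, Nat.reduceLeDiff, Order.lt_one_iff, and_true, and_false, Std.le_refl, Order.lt_two_iff, zero_le, OfNat.ofNat_ne_one, Nat.reduceEqDiff, Nat.zero_div, ne_eq, not_true_eq_false, false_or, false_and, Nat.succ_ne_self, mnr_mk, zero_add, Nat.zero_mod, or_self, not_false_eq_true]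
  · rw [hβ _ _ g11 k7 (by simp)]; simp only [Ent, Fwd, fam_mk, OfNat.ofNat_ne_zero, maj_mk, add_zero, nonpos_iff_eq_zero, and_self, Nat.one_le_ofNat, Nat.reduceLeDiff, Order.lt_one_iff, and_true, and_false, Order.lt_two_iff, zero_le, OfNat.ofNat_ne_one, Nat.reduceEqDiff, Nat.zero_div, ne_eq, not_true_eq_false, false_or, false_and, Nat.succ_ne_self, mnr_mk, zero_add, Nat.zero_mod, or_self, or_false, or_true]
  · rw [hβ _ _ g11 k8 (by simp)]; simp only [Ent, Fwd, fam_mk, OfNat.ofNat_ne_zero, maj_mk, zero_add, false_and, and_self, Nat.one_le_ofNat, Nat.reduceLeDiff, Order.lt_one_iff, and_true, and_false, Order.lt_two_iff, zero_le, OfNat.ofNat_ne_one, Nat.reduceEqDiff, Nat.div_eq_zero_iff, false_or, ne_eq, mnr_mk, Nat.zero_div, one_ne_zero, Nat.zero_mod, Nat.succ_ne_self, true_and, or_self, add_zero, not_false_eq_true]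
  · rw [hβ _ _ g11 k11 (by simp)]; simp only [Ent, Fwd, fam_mk, OfNat.ofNat_ne_zero, maj_mk, add_zero, nonpos_iff_eq_zero, and_self, Nat.one_le_ofNat, Nat.reduceLeDiff, Order.lt_one_iff, and_true, and_false, Order.lt_two_iff, zero_le, OfNat.ofNat_ne_one, Nat.reduceEqDiff, Nat.zero_div, ne_eq, not_true_eq_false, false_or, false_and, mnr_mk, zero_add, Nat.zero_mod, Nat.succ_ne_self, or_true, or_self]

theorem K2 {L n0 i j : ℕ} {p q : ℕ → ℕ} {β : Row → Row → Prop}
    (hi : i < NN L n0) (hj : j < NN L n0)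
    (hp : ∀ s ≤ 2 * L, p s < NN L n0) (hq : ∀ s ≤ 2 * L, q s < NN L n0)
    (hβ : ∀ x y, GR L n0 i p x → GR L n0 j q y → (fam x ≠ 8 ∨ fam y ≠ 8) →
      (β x y ↔ Ent L n0 x y)) {s t m m' : ℕ} (hs : s ≤ 2 * L) (ht : t ≤ 2 * L)
    (hm : m ≤ L) (hm' : m' ≤ L) (hmm : m ≠ m' ∨ m = L)
    (hn : β (mk 8 (p s) m) (mk 8 (q t) m')) : HasCopy L n0 β := by
  have hmm' : m' ≠ m ∨ m' = L := by omega
  have g2 : GR L n0 i p (mk 2 m' i) :=
    GR_mk hi (by norm_num) (by norm_num) (by simp only [szA, OfNat.ofNat_ne_zero, ↓reduceIte, OfNat.ofNat_ne_one, Order.lt_add_one_iff]; omega)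
  have g5 : GR L n0 i p (mk 5 0 i) := GR_mk hi (by norm_num) (by norm_num) (by simp only [szA, OfNat.ofNat_ne_zero, ↓reduceIte, OfNat.ofNat_ne_one, Nat.reduceEqDiff, Nat.succ_ne_self, Nat.reduceLT, Order.lt_one_iff])
  have g9 : GR L n0 i p (mk 9 0 i) := GR_mk hi (by norm_num) (by norm_num) (by simp only [szA, OfNat.ofNat_ne_zero, ↓reduceIte, OfNat.ofNat_ne_one, Nat.reduceEqDiff, Nat.succ_ne_self, Nat.reduceLT, Order.lt_one_iff])
  have g10 : GR L n0 i p (mk 10 0 i) := GR_mk hi (by norm_num) (by norm_num) (by simp only [szA, OfNat.ofNat_ne_zero, ↓reduceIte, OfNat.ofNat_ne_one, Nat.reduceEqDiff, Nat.reduceLT, Order.lt_one_iff])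
  have g8 : GR L n0 i p (mk 8 (p s) m) := GR_lam hp hs hm
  have k2 : GR L n0 j q (mk 2 m j) :=
    GR_mk hj (by norm_num) (by norm_num) (by simp only [szA, OfNat.ofNat_ne_zero, ↓reduceIte, OfNat.ofNat_ne_one, Order.lt_add_one_iff]; omega)
  have k5 : GR L n0 j q (mk 5 0 j) := GR_mk hj (by norm_num) (by norm_num) (by simp only [szA, OfNat.ofNat_ne_zero, ↓reduceIte, OfNat.ofNat_ne_one, Nat.reduceEqDiff, Nat.succ_ne_self, Nat.reduceLT, Order.lt_one_iff])
  have k9 : GR L n0 j q (mk 9 0 j) := GR_mk hj (by norm_num) (by norm_num) (by simp only [szA, OfNat.ofNat_ne_zero, ↓reduceIte, OfNat.ofNat_ne_one, Nat.reduceEqDiff, Nat.succ_ne_self, Nat.reduceLT, Order.lt_one_iff])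
  have k10 : GR L n0 j q (mk 10 0 j) := GR_mk hj (by norm_num) (by norm_num) (by simp only [szA, OfNat.ofNat_ne_zero, ↓reduceIte, OfNat.ofNat_ne_one, Nat.reduceEqDiff, Nat.reduceLT, Order.lt_one_iff])
  have k8 : GR L n0 j q (mk 8 (q t) m') := GR_lam hq ht hm'
  refine copy_of hi hj hβ g2 g5 g8 g9 g10 k2 k5 k8 k9 k10 (by simp) (by simp) (by simp)
    (by rw [mk_lt_iff]; omega) (by rw [mk_lt_iff]; omega) (by simp) (by simp) (by simp)
    (by rw [mk_lt_iff]; omega) (by rw [mk_lt_iff]; omega)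
    ?_ ?_ ?_ ?_ ?_ ?_ ?_ ?_ ?_ ?_ ?_ ?_ hn ?_ ?_ ?_ ?_ ?_ ?_ ?_ ?_ ?_ ?_ ?_ ?_
  · rw [hβ _ _ g2 k2 (by simp)]; simp only [Ent, Fwd, fam_mk, OfNat.ofNat_ne_zero, maj_mk, false_and, and_self, Nat.one_le_ofNat, Nat.reduceLeDiff, Order.lt_one_iff, true_and, Order.lt_two_iff, OfNat.ofNat_ne_one, Nat.reduceEqDiff, ne_eq, and_false, mnr_mk, or_self, or_false, false_or]; omega
  · rw [hβ _ _ g2 k5 (by simp)]; simp only [Ent, Fwd, fam_mk, OfNat.ofNat_ne_zero, maj_mk, add_zero, false_and, and_self, Nat.one_le_ofNat, Nat.reduceLeDiff, Order.lt_one_iff, and_false, Order.lt_two_iff, true_and, OfNat.ofNat_ne_one, Nat.succ_ne_self, Nat.zero_div, Nat.reduceEqDiff, ne_eq, and_true, mnr_mk, or_self, or_false, or_true, zero_add, zero_le, Nat.div_eq_zero_iff, false_or, Nat.zero_mod]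
  · rw [hβ _ _ g2 k8 (by simp)]; simp only [Ent, Fwd, fam_mk, OfNat.ofNat_ne_zero, maj_mk, false_and, and_self, Nat.one_le_ofNat, Nat.reduceLeDiff, Order.lt_one_iff, and_false, Order.lt_two_iff, OfNat.ofNat_ne_one, Nat.reduceEqDiff, ne_eq, mnr_mk, and_true, true_and, Nat.succ_ne_self, or_self, or_false, or_true]
  · rw [hβ _ _ g2 k9 (by simp)]; simp only [Ent, Fwd, fam_mk, OfNat.ofNat_ne_zero, maj_mk, add_zero, false_and, and_self, Nat.one_le_ofNat, Nat.reduceLeDiff, Order.lt_one_iff, and_false, Order.lt_two_iff, OfNat.ofNat_ne_one, Nat.reduceEqDiff, Nat.zero_div, ne_eq, Nat.succ_ne_self, mnr_mk, and_true, or_self, zero_add, zero_le, Nat.div_eq_zero_iff, false_or, true_and, Nat.zero_mod, not_false_eq_true]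
  · rw [hβ _ _ g2 k10 (by simp)]; simp [Ent, Fwd]
  · rw [hβ _ _ g5 k2 (by simp)]; simp only [Ent, Fwd, fam_mk, OfNat.ofNat_ne_zero, maj_mk, zero_add, false_and, and_self, Nat.one_le_ofNat, Nat.reduceLeDiff, Order.lt_one_iff, and_true, Order.lt_two_iff, zero_le, OfNat.ofNat_ne_one, Nat.reduceEqDiff, Nat.div_eq_zero_iff, false_or, Nat.succ_ne_self, ne_eq, true_and, and_false, mnr_mk, Nat.zero_div, Nat.zero_mod, or_self, add_zero, or_false, or_true]
  · rw [hβ _ _ g5 k5 (by simp)]; simp only [Ent, Fwd, fam_mk, OfNat.ofNat_ne_zero, maj_mk, add_zero, nonpos_iff_eq_zero, and_self, Nat.one_le_ofNat, Nat.reduceLeDiff, Order.lt_one_iff, and_true, and_false, Order.lt_two_iff, zero_le, OfNat.ofNat_ne_one, Nat.succ_ne_self, Nat.zero_div, Nat.reduceEqDiff, ne_eq, not_true_eq_false, false_or, false_and, mnr_mk, zero_add, Nat.zero_mod, or_self, or_false, or_true]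
  · rw [hβ _ _ g5 k8 (by simp)]; simp only [Ent, Fwd, fam_mk, OfNat.ofNat_ne_zero, maj_mk, zero_add, false_and, and_self, Nat.one_le_ofNat, Nat.reduceLeDiff, Order.lt_one_iff, and_true, and_false, Order.lt_two_iff, zero_le, OfNat.ofNat_ne_one, Nat.reduceEqDiff, Nat.div_eq_zero_iff, false_or, Nat.succ_ne_self, ne_eq, mnr_mk, true_and, Nat.zero_div, Nat.zero_mod, or_self, add_zero, not_false_eq_true]
  · rw [hβ _ _ g5 k9 (by simp)]; simp only [Ent, Fwd, fam_mk, OfNat.ofNat_ne_zero, maj_mk, add_zero, nonpos_iff_eq_zero, and_self, Nat.one_le_ofNat, Nat.reduceLeDiff, Order.lt_one_iff, and_true, and_false, Order.lt_two_iff, zero_le, OfNat.ofNat_ne_one, Nat.reduceEqDiff, Nat.zero_div, Nat.succ_ne_self, ne_eq, not_true_eq_false, false_or, false_and, mnr_mk, zero_add, Nat.zero_mod, or_self, or_false, or_true]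
  · rw [hβ _ _ g5 k10 (by simp)]; simp only [Ent, Fwd, fam_mk, OfNat.ofNat_ne_zero, maj_mk, add_zero, nonpos_iff_eq_zero, and_self, Nat.one_le_ofNat, Nat.reduceLeDiff, Order.lt_one_iff, and_true, and_false, Order.lt_two_iff, zero_le, OfNat.ofNat_ne_one, Nat.reduceEqDiff, Nat.zero_div, Nat.succ_ne_self, ne_eq, not_true_eq_false, false_or, false_and, mnr_mk, zero_add, Nat.zero_mod, or_self, not_false_eq_true]
  · rw [hβ _ _ g8 k2 (by simp)]; simp only [Ent, Fwd, fam_mk, OfNat.ofNat_ne_zero, maj_mk, false_and, and_self, Nat.one_le_ofNat, Nat.reduceLeDiff, Order.lt_one_iff, true_and, Order.lt_two_iff, OfNat.ofNat_ne_one, Nat.reduceEqDiff, ne_eq, mnr_mk, and_false, Nat.succ_ne_self, or_self, and_true, or_false, or_true]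
  · rw [hβ _ _ g8 k5 (by simp)]; simp only [Ent, Fwd, fam_mk, OfNat.ofNat_ne_zero, maj_mk, add_zero, false_and, and_self, Nat.one_le_ofNat, Nat.reduceLeDiff, Order.lt_one_iff, and_false, Order.lt_two_iff, true_and, OfNat.ofNat_ne_one, Nat.succ_ne_self, Nat.zero_div, Nat.reduceEqDiff, ne_eq, and_true, mnr_mk, or_self, zero_add, zero_le, Nat.div_eq_zero_iff, false_or, Nat.zero_mod, not_false_eq_true]
  · rw [hβ _ _ g8 k9 (by simp)]; simp only [Ent, Fwd, fam_mk, OfNat.ofNat_ne_zero, maj_mk, add_zero, false_and, and_self, Nat.one_le_ofNat, Nat.reduceLeDiff, Order.lt_one_iff, and_false, Order.lt_two_iff, OfNat.ofNat_ne_one, Nat.reduceEqDiff, Nat.zero_div, ne_eq, Nat.succ_ne_self, mnr_mk, and_true, or_self, zero_add, zero_le, Nat.div_eq_zero_iff, false_or, true_and, Nat.zero_mod, not_false_eq_true]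
  · rw [hβ _ _ g8 k10 (by simp)]; simp only [Ent, Fwd, fam_mk, OfNat.ofNat_ne_zero, maj_mk, add_zero, false_and, and_self, Nat.one_le_ofNat, Nat.reduceLeDiff, Order.lt_one_iff, and_false, Order.lt_two_iff, OfNat.ofNat_ne_one, Nat.reduceEqDiff, Nat.zero_div, ne_eq, mnr_mk, and_true, Nat.succ_ne_self, or_self, or_false, or_true, zero_add, zero_le, Nat.div_eq_zero_iff, false_or, true_and, Nat.zero_mod]
  · rw [hβ _ _ g9 k2 (by simp)]; simp only [Ent, Fwd, fam_mk, OfNat.ofNat_ne_zero, maj_mk, zero_add, false_and, and_self, Nat.one_le_ofNat, Nat.reduceLeDiff, Order.lt_one_iff, and_true, Order.lt_two_iff, zero_le, OfNat.ofNat_ne_one, Nat.reduceEqDiff, Nat.div_eq_zero_iff, false_or, ne_eq, true_and, mnr_mk, Nat.zero_div, Nat.zero_mod, Nat.succ_ne_self, or_self, add_zero, and_false, not_false_eq_true]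
  · rw [hβ _ _ g9 k5 (by simp)]; simp only [Ent, Fwd, fam_mk, OfNat.ofNat_ne_zero, maj_mk, add_zero, nonpos_iff_eq_zero, and_self, Nat.one_le_ofNat, Nat.reduceLeDiff, Order.lt_one_iff, and_true, and_false, Order.lt_two_iff, zero_le, OfNat.ofNat_ne_one, Nat.succ_ne_self, Nat.zero_div, Nat.reduceEqDiff, ne_eq, not_true_eq_false, false_or, false_and, mnr_mk, zero_add, Nat.zero_mod, or_self, or_false, or_true]
  · rw [hβ _ _ g9 k8 (by simp)]; simp only [Ent, Fwd, fam_mk, OfNat.ofNat_ne_zero, maj_mk, zero_add, false_and, and_self, Nat.one_le_ofNat, Nat.reduceLeDiff, Order.lt_one_iff, and_true, and_false, Order.lt_two_iff, zero_le, OfNat.ofNat_ne_one, Nat.reduceEqDiff, Nat.div_eq_zero_iff, false_or, ne_eq, mnr_mk, true_and, Nat.zero_div, Nat.zero_mod, Nat.succ_ne_self, or_self, add_zero, not_false_eq_true]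
  · rw [hβ _ _ g9 k9 (by simp)]; simp only [Ent, Fwd, fam_mk, OfNat.ofNat_ne_zero, maj_mk, add_zero, nonpos_iff_eq_zero, and_self, Nat.one_le_ofNat, Nat.reduceLeDiff, Order.lt_one_iff, and_true, and_false, Order.lt_two_iff, zero_le, OfNat.ofNat_ne_one, Nat.reduceEqDiff, Nat.zero_div, ne_eq, not_true_eq_false, false_or, false_and, Nat.succ_ne_self, mnr_mk, zero_add, Nat.zero_mod, or_self, not_false_eq_true]
  · rw [hβ _ _ g9 k10 (by simp)]; simp only [Ent, Fwd, fam_mk, OfNat.ofNat_ne_zero, maj_mk, add_zero, nonpos_iff_eq_zero, and_self, Nat.one_le_ofNat, Nat.reduceLeDiff, Order.lt_one_iff, and_true, and_false, Order.lt_two_iff, zero_le, OfNat.ofNat_ne_one, Nat.reduceEqDiff, Nat.zero_div, ne_eq, not_true_eq_false, false_or, false_and, mnr_mk, zero_add, Nat.zero_mod, Nat.succ_ne_self, or_self, not_false_eq_true]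
  · rw [hβ _ _ g10 k2 (by simp)]; simp only [Ent, Fwd, fam_mk, OfNat.ofNat_ne_zero, maj_mk, zero_add, false_and, and_self, Nat.one_le_ofNat, Nat.reduceLeDiff, Order.lt_one_iff, and_true, Order.lt_two_iff, zero_le, OfNat.ofNat_ne_one, Nat.reduceEqDiff, Nat.div_eq_zero_iff, false_or, ne_eq, true_and, mnr_mk, Nat.zero_div, Nat.zero_mod, and_false, or_self, add_zero, Nat.succ_ne_self, or_false, or_true]
  · rw [hβ _ _ g10 k5 (by simp)]; simp only [Ent, Fwd, fam_mk, OfNat.ofNat_ne_zero, maj_mk, add_zero, nonpos_iff_eq_zero, and_self, Nat.one_le_ofNat, Nat.reduceLeDiff, Order.lt_one_iff, and_true, and_false, Order.lt_two_iff, zero_le, OfNat.ofNat_ne_one, Nat.succ_ne_self, Nat.zero_div, Nat.reduceEqDiff, ne_eq, not_true_eq_false, false_or, false_and, mnr_mk, zero_add, Nat.zero_mod, or_self, not_false_eq_true]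
  · rw [hβ _ _ g10 k8 (by simp)]; simp only [Ent, Fwd, fam_mk, OfNat.ofNat_ne_zero, maj_mk, zero_add, false_and, and_self, Nat.one_le_ofNat, Nat.reduceLeDiff, Order.lt_one_iff, and_true, and_false, Order.lt_two_iff, zero_le, OfNat.ofNat_ne_one, Nat.reduceEqDiff, Nat.div_eq_zero_iff, false_or, ne_eq, mnr_mk, true_and, Nat.zero_div, Nat.zero_mod, Nat.succ_ne_self, or_self, add_zero, or_false, or_true]
  · rw [hβ _ _ g10 k9 (by simp)]; simp only [Ent, Fwd, fam_mk, OfNat.ofNat_ne_zero, maj_mk, add_zero, nonpos_iff_eq_zero, and_self, Nat.one_le_ofNat, Nat.reduceLeDiff, Order.lt_one_iff, and_true, and_false, Order.lt_two_iff, zero_le, OfNat.ofNat_ne_one, Nat.reduceEqDiff, Nat.zero_div, ne_eq, not_true_eq_false, false_or, false_and, Nat.succ_ne_self, mnr_mk, zero_add, Nat.zero_mod, or_self, not_false_eq_true]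
  · rw [hβ _ _ g10 k10 (by simp)]; simp only [Ent, Fwd, fam_mk, OfNat.ofNat_ne_zero, maj_mk, add_zero, nonpos_iff_eq_zero, and_self, Nat.one_le_ofNat, Nat.reduceLeDiff, Order.lt_one_iff, and_true, and_false, Order.lt_two_iff, zero_le, OfNat.ofNat_ne_one, Nat.reduceEqDiff, Nat.zero_div, ne_eq, not_true_eq_false, false_or, false_and, mnr_mk, zero_add, Nat.zero_mod, Nat.succ_ne_self, or_self, or_false, or_true]

theorem K1 {L n0 i j : ℕ} {p q : ℕ → ℕ} {β : Row → Row → Prop}
    (hi : i < NN L n0) (hj : j < NN L n0)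
    (hp : ∀ s ≤ 2 * L, p s < NN L n0) (hq : ∀ s ≤ 2 * L, q s < NN L n0)
    (hβ : ∀ x y, GR L n0 i p x → GR L n0 j q y → (fam x ≠ 8 ∨ fam y ≠ 8) →
      (β x y ↔ Ent L n0 x y)) {s1 s2 s3 t1 t2 t3 m b : ℕ}
    (hs1 : s1 ≤ 2 * L) (hs2 : s2 ≤ 2 * L) (hs3 : s3 ≤ 2 * L)
    (ht1 : t1 ≤ 2 * L) (ht2 : t2 ≤ 2 * L) (ht3 : t3 ≤ 2 * L)
    (hp12 : p s1 < p s2) (hp23 : p s2 < p s3) (hq12 : q t1 < q t2) (hq23 : q t2 < q t3)
    (hm : m + 1 ≤ L) (hb : b < 2)
    (hpb : win L n0 (m + 1) (p s2) % 2 = b) (hqb : win L n0 (m + 1) (q t2) % 2 = b)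
    (h11 : β (mk 8 (p s1) m) (mk 8 (q t1) m)) (h12 : ¬ β (mk 8 (p s1) m) (mk 8 (q t2) (m + 1)))
    (h13 : β (mk 8 (p s1) m) (mk 8 (q t3) m)) (h21 : ¬ β (mk 8 (p s2) (m + 1)) (mk 8 (q t1) m))
    (h22 : ¬ β (mk 8 (p s2) (m + 1)) (mk 8 (q t2) (m + 1)))
    (h23 : ¬ β (mk 8 (p s2) (m + 1)) (mk 8 (q t3) m))
    (h31 : β (mk 8 (p s3) m) (mk 8 (q t1) m)) (h32 : ¬ β (mk 8 (p s3) m) (mk 8 (q t2) (m + 1)))
    (h33 : β (mk 8 (p s3) m) (mk 8 (q t3) m)) : HasCopy L n0 β := by
  have e1 : (2 * m + b) / 2 = m := by omega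
  have e2 : (2 * m + b) % 2 = b := by (clear * - e1; omega)
  have g1 : GR L n0 i p (mk 1 m i) :=
    GR_mk hi (by norm_num) (by norm_num) (by simp [szA]; omega)
  have g4 : GR L n0 i p (mk 4 (2 * m + b) i) :=
    GR_mk hi (by norm_num) (by norm_num) (by simp only [szA, OfNat.ofNat_ne_zero, ↓reduceIte, OfNat.ofNat_ne_one, Nat.reduceEqDiff]; (clear * - hm hpb hqb e1; omega))
  have gx : GR L n0 i p (mk 8 (p s1) m) := GR_lam hp hs1 (by omega)
  have gz : GR L n0 i p (mk 8 (p s2) (m + 1)) := GR_lam hp hs2 (by omega)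
  have gy : GR L n0 i p (mk 8 (p s3) m) := GR_lam hp hs3 (by omega)
  have k1 : GR L n0 j q (mk 1 m j) :=
    GR_mk hj (by norm_num) (by norm_num) (by simp [szA]; omega)
  have k4 : GR L n0 j q (mk 4 (2 * m + b) j) :=
    GR_mk hj (by norm_num) (by norm_num) (by simp only [szA, OfNat.ofNat_ne_zero, ↓reduceIte, OfNat.ofNat_ne_one, Nat.reduceEqDiff]; (clear * - hm hpb hqb e1; omega))
  have kx : GR L n0 j q (mk 8 (q t1) m) := GR_lam hq ht1 (by omega)
  have kz : GR L n0 j q (mk 8 (q t2) (m + 1)) := GR_lam hq ht2 (by omega)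
  have ky : GR L n0 j q (mk 8 (q t3) m) := GR_lam hq ht3 (by omega)
  refine copy_of hi hj hβ g1 g4 gx gz gy k1 k4 kx kz ky (by simp) (by simp only [fam_mk, Std.le_refl, Nat.reduceLeDiff, and_self]) (by simp only [fam_mk, Nat.reduceLeDiff])
    (by rw [mk_lt_iff]; (clear * - hp12; omega)) (by rw [mk_lt_iff]; (clear * - hp23; omega)) (by simp) (by simp) (by simp)
    (by rw [mk_lt_iff]; (clear * - hq12; omega)) (by rw [mk_lt_iff]; (clear * - hq23; omega))
    ?_ ?_ ?_ ?_ ?_ ?_ ?_ ?_ ?_ ?_ ?_ ?_ h11 h12 h13 ?_ ?_ h21 h22 h23 ?_ ?_ h31 h32 h33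
  · rw [hβ _ _ g1 k1 (by simp)]; simp only [Ent, Fwd, fam_mk, one_ne_zero, maj_mk, false_and, and_self, Std.le_refl, Nat.one_le_ofNat, Order.lt_one_iff, true_and, Nat.not_ofNat_le_one, Order.lt_two_iff, OfNat.one_ne_ofNat, and_false, and_true, ne_eq, not_true_eq_false, false_or, mnr_mk, or_self, or_false, or_true]
  · rw [hβ _ _ g1 k4 (by simp)]; simp only [Ent, Fwd, fam_mk, one_ne_zero, OfNat.ofNat_ne_zero, maj_mk, false_and, and_self, Nat.one_le_ofNat, Nat.reduceLeDiff, Order.lt_one_iff, and_false, Std.le_refl, Order.lt_two_iff, true_and, OfNat.ofNat_ne_one, e1, OfNat.one_ne_ofNat, Nat.reduceEqDiff, ne_eq, Nat.succ_ne_self, mnr_mk, or_self, or_false, or_true, Nat.add_eq_zero_iff, mul_eq_zero, false_or, Nat.not_ofNat_le_one, Nat.mul_add_mod_self_left]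
  · rw [hβ _ _ g1 kx (by simp)]; simp only [Ent, Fwd, fam_mk, one_ne_zero, OfNat.ofNat_ne_zero, maj_mk, false_and, and_self, Nat.one_le_ofNat, Nat.reduceLeDiff, Order.lt_one_iff, and_false, Order.lt_two_iff, OfNat.ofNat_ne_one, Nat.reduceEqDiff, OfNat.one_ne_ofNat, ne_eq, mnr_mk, true_and, and_true, Nat.succ_ne_self, or_self, or_false, or_true, Std.le_refl, Nat.not_ofNat_le_one]
  · rw [hβ _ _ g1 kz (by simp)]; simp only [Ent, Fwd, fam_mk, one_ne_zero, OfNat.ofNat_ne_zero, maj_mk, false_and, and_self, Nat.one_le_ofNat, Nat.reduceLeDiff, Order.lt_one_iff, and_false, Order.lt_two_iff, OfNat.ofNat_ne_one, Nat.reduceEqDiff, OfNat.one_ne_ofNat, ne_eq, mnr_mk, Nat.left_eq_add, Nat.add_right_cancel_iff, true_and, Nat.add_eq_zero_iff, Nat.succ_ne_self, or_self, Std.le_refl, Nat.not_ofNat_le_one, not_false_eq_true]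
  · rw [hβ _ _ g1 ky (by simp)]; simp only [Ent, Fwd, fam_mk, one_ne_zero, OfNat.ofNat_ne_zero, maj_mk, false_and, and_self, Nat.one_le_ofNat, Nat.reduceLeDiff, Order.lt_one_iff, and_false, Order.lt_two_iff, OfNat.ofNat_ne_one, Nat.reduceEqDiff, OfNat.one_ne_ofNat, ne_eq, mnr_mk, true_and, and_true, Nat.succ_ne_self, or_self, or_false, or_true, Std.le_refl, Nat.not_ofNat_le_one]
  · rw [hβ _ _ g4 k1 (by simp)]; simp only [Ent, Fwd, fam_mk, OfNat.ofNat_ne_zero, one_ne_zero, maj_mk, false_and, and_self, Std.le_refl, Nat.one_le_ofNat, Order.lt_one_iff, Nat.add_eq_zero_iff, mul_eq_zero, false_or, true_and, Nat.not_ofNat_le_one, Order.lt_two_iff, OfNat.ofNat_ne_one, OfNat.one_ne_ofNat, and_false, Nat.reduceEqDiff, ne_eq, Nat.succ_ne_self, mnr_mk, e1, Nat.mul_add_mod_self_left, or_self, Nat.reduceLeDiff, or_false, or_true]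
  · rw [hβ _ _ g4 k4 (by simp)]; simp only [Ent, Fwd, fam_mk, OfNat.ofNat_ne_zero, maj_mk, false_and, and_self, Nat.one_le_ofNat, Nat.reduceLeDiff, Order.lt_one_iff, Nat.add_eq_zero_iff, mul_eq_zero, false_or, and_false, Std.le_refl, Order.lt_two_iff, true_and, OfNat.ofNat_ne_one, Nat.add_left_cancel_iff, and_true, Nat.reduceEqDiff, ne_eq, not_true_eq_false, Nat.succ_ne_self, mnr_mk, Nat.mul_add_mod_self_left, or_self, or_false, or_true]
  · rw [hβ _ _ g4 kx (by simp)]; simp only [Ent, Fwd, fam_mk, OfNat.ofNat_ne_zero, maj_mk, false_and, and_self, Nat.one_le_ofNat, Nat.reduceLeDiff, Order.lt_one_iff, Nat.add_eq_zero_iff, mul_eq_zero, false_or, and_false, Order.lt_two_iff, OfNat.ofNat_ne_one, Nat.reduceEqDiff, ne_eq, Nat.succ_ne_self, mnr_mk, true_and, e1, Nat.add_eq_left, one_ne_zero, Nat.mul_add_mod_self_left, or_self, Std.le_refl, not_false_eq_true]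
  · rw [hβ _ _ g4 kz (by simp)]; simp only [Ent, Fwd, fam_mk, OfNat.ofNat_ne_zero, maj_mk, false_and, and_self, Nat.one_le_ofNat, Nat.reduceLeDiff, Order.lt_one_iff, Nat.add_eq_zero_iff, mul_eq_zero, false_or, and_false, Order.lt_two_iff, OfNat.ofNat_ne_one, Nat.reduceEqDiff, ne_eq, Nat.succ_ne_self, mnr_mk, true_and, e1, Nat.add_left_cancel_iff, hqb, e2, one_ne_zero, or_self, or_false, or_true, Std.le_refl]
  · rw [hβ _ _ g4 ky (by simp)]; simp only [Ent, Fwd, fam_mk, OfNat.ofNat_ne_zero, maj_mk, false_and, and_self, Nat.one_le_ofNat, Nat.reduceLeDiff, Order.lt_one_iff, Nat.add_eq_zero_iff, mul_eq_zero, false_or, and_false, Order.lt_two_iff, OfNat.ofNat_ne_one, Nat.reduceEqDiff, ne_eq, Nat.succ_ne_self, mnr_mk, true_and, e1, Nat.add_eq_left, one_ne_zero, Nat.mul_add_mod_self_left, or_self, Std.le_refl, not_false_eq_true]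
  · rw [hβ _ _ gx k1 (by simp)]; simp only [Ent, Fwd, fam_mk, OfNat.ofNat_ne_zero, one_ne_zero, maj_mk, false_and, and_self, Std.le_refl, Nat.one_le_ofNat, Order.lt_one_iff, true_and, Nat.not_ofNat_le_one, Order.lt_two_iff, OfNat.ofNat_ne_one, OfNat.one_ne_ofNat, Nat.reduceEqDiff, ne_eq, mnr_mk, and_false, Nat.succ_ne_self, or_self, Nat.reduceLeDiff, and_true, or_false, or_true]
  · rw [hβ _ _ gx k4 (by simp)]; simp only [Ent, Fwd, fam_mk, OfNat.ofNat_ne_zero, maj_mk, false_and, and_self, Nat.one_le_ofNat, Nat.reduceLeDiff, Order.lt_one_iff, and_false, Std.le_refl, Order.lt_two_iff, true_and, OfNat.ofNat_ne_one, e1, Nat.reduceEqDiff, ne_eq, Nat.succ_ne_self, mnr_mk, or_self, Nat.add_eq_zero_iff, mul_eq_zero, false_or, Nat.add_eq_left, one_ne_zero, Nat.mul_add_mod_self_left, not_false_eq_true]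
  · rw [hβ _ _ gz k1 (by simp)]; simp only [Ent, Fwd, fam_mk, OfNat.ofNat_ne_zero, one_ne_zero, maj_mk, false_and, and_self, Std.le_refl, Nat.one_le_ofNat, Order.lt_one_iff, true_and, Nat.not_ofNat_le_one, Order.lt_two_iff, OfNat.ofNat_ne_one, OfNat.one_ne_ofNat, Nat.reduceEqDiff, ne_eq, mnr_mk, and_false, Nat.succ_ne_self, or_self, Nat.reduceLeDiff, Nat.left_eq_add, Nat.add_right_cancel_iff, Nat.add_eq_zero_iff, not_false_eq_true]
  · rw [hβ _ _ gz k4 (by simp)]; simp only [Ent, Fwd, fam_mk, OfNat.ofNat_ne_zero, maj_mk, false_and, and_self, Nat.one_le_ofNat, Nat.reduceLeDiff, Order.lt_one_iff, and_false, Std.le_refl, Order.lt_two_iff, true_and, OfNat.ofNat_ne_one, e1, Nat.reduceEqDiff, ne_eq, Nat.succ_ne_self, mnr_mk, or_self, Nat.add_eq_zero_iff, mul_eq_zero, false_or, Nat.add_left_cancel_iff, hpb, e2, one_ne_zero, or_false, or_true]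
  · rw [hβ _ _ gy k1 (by simp)]; simp only [Ent, Fwd, fam_mk, OfNat.ofNat_ne_zero, one_ne_zero, maj_mk, false_and, and_self, Std.le_refl, Nat.one_le_ofNat, Order.lt_one_iff, true_and, Nat.not_ofNat_le_one, Order.lt_two_iff, OfNat.ofNat_ne_one, OfNat.one_ne_ofNat, Nat.reduceEqDiff, ne_eq, mnr_mk, and_false, Nat.succ_ne_self, or_self, Nat.reduceLeDiff, and_true, or_false, or_true]
  · rw [hβ _ _ gy k4 (by simp)]; simp only [Ent, Fwd, fam_mk, OfNat.ofNat_ne_zero, maj_mk, false_and, and_self, Nat.one_le_ofNat, Nat.reduceLeDiff, Order.lt_one_iff, and_false, Std.le_refl, Order.lt_two_iff, true_and, OfNat.ofNat_ne_one, e1, Nat.reduceEqDiff, ne_eq, Nat.succ_ne_self, mnr_mk, or_self, Nat.add_eq_zero_iff, mul_eq_zero, false_or, Nat.add_eq_left, one_ne_zero, Nat.mul_add_mod_self_left, not_false_eq_true]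

theorem win_eq {L n0 w m x : ℕ} (h1 : w * n0 ≤ x) (h2 : x < (w + 1) * n0) :
    win L n0 m x = w / 2 ^ (L - m) := by
  have hx : x / n0 = w := by
    rw [Nat.div_eq_iff (by
      rcases Nat.eq_zero_or_pos n0 with h | h
      · subst h; simp at h2
      · exact h)]
    constructor
    · exact h1
    · have : (w + 1) * n0 = w * n0 + n0 := by ring
      omega
  unfold win
  rw [← Nat.div_div_eq_div_mul, hx]

theorem chain (L n0 : ℕ) (hL : 1 ≤ L) (hn0 : 1 ≤ n0) (β : Row → Row → Prop) (i j w : ℕ)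
    (hi : i < NN L n0) (hj : j < NN L n0) (hw : w < 2 ^ L) (p q : ℕ → ℕ)
    (hp : ∀ a b, a < b → b ≤ 2 * L → p a < p b) (hq : ∀ a b, a < b → b ≤ 2 * L → q a < q b)
    (hpw : ∀ a ≤ 2 * L, w * n0 ≤ p a ∧ p a < (w + 1) * n0)
    (hqw : ∀ a ≤ 2 * L, w * n0 ≤ q a ∧ q a < (w + 1) * n0)
    (h1 : ∀ f a f' a', f < 12 → f ≠ 8 → a < szA L n0 f → f' < 12 → f' ≠ 8 → a' < szA L n0 f' →
      (β (mk f a i) (mk f' a' j) ↔ Ent L n0 (mk f a i) (mk f' a' j)))
    (h2 : ∀ s ≤ 2 * L, ∀ m ≤ L, ∀ f' a', f' < 12 → f' ≠ 8 → a' < szA L n0 f' →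
      (β (mk 8 (p s) m) (mk f' a' j) ↔ Ent L n0 (mk 8 (p s) m) (mk f' a' j)))
    (h3 : ∀ s ≤ 2 * L, ∀ m ≤ L, ∀ f a, f < 12 → f ≠ 8 → a < szA L n0 f →
      (β (mk f a i) (mk 8 (q s) m) ↔ Ent L n0 (mk f a i) (mk 8 (q s) m))) :
    ∃ u v : Fin 49 → Row, StrictMono u ∧ StrictMono v ∧ (∀ h, u h ∈ S L n0) ∧
      (∀ h, v h ∈ S L n0) ∧ ∀ h h' : Fin 49, β (u h) (v h') ↔ Pat h.1 h'.1 := by
  by_contra hno
  have hno' : ¬ HasCopy L n0 β := hno
  have hN : (w + 1) * n0 ≤ NN L n0 := by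
    unfold NN
    rw [mul_comm]
    exact Nat.mul_le_mul_left _ hw
  have hpN : ∀ s ≤ 2 * L, p s < NN L n0 := fun s hs => lt_of_lt_of_le (hpw s hs).2 hN
  have hqN : ∀ s ≤ 2 * L, q s < NN L n0 := fun s hs => lt_of_lt_of_le (hqw s hs).2 hN
  have hβ : ∀ x y, GR L n0 i p x → GR L n0 j q y → (fam x ≠ 8 ∨ fam y ≠ 8) →
      (β x y ↔ Ent L n0 x y) := by
    intro x y hx hy hxy
    obtain ⟨hxS, hx⟩ := hx
    obtain ⟨hyS, hy⟩ := hy
    rw [mem_S] at hxS hyS
    rcases hx with ⟨hx8, hxi⟩ | ⟨hx8, s, hs, hxs⟩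
    · rcases hy with ⟨hy8, hyj⟩ | ⟨hy8, t, ht, hyt⟩
      · have := h1 (fam x) (maj x) (fam y) (maj y) hxS.1 hx8 hxS.2.1 hyS.1 hy8 hyS.2.1
        rw [← hxi, ← hyj, mk_eta, mk_eta] at this
        exact this
      · have hm : mnr y ≤ L := by
          have := hyS.2.2
          rw [hy8] at this
          simp [szB] at this
          omega
        have := h3 t ht (mnr y) hm (fam x) (maj x) hxS.1 hx8 hxS.2.1
        rw [← hxi, ← hyt, ← hy8, mk_eta, mk_eta] at this
        exact this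
    · rcases hy with ⟨hy8, hyj⟩ | ⟨hy8, t, ht, hyt⟩
      · have hm : mnr x ≤ L := by
          have := hxS.2.2
          rw [hx8] at this
          simp [szB] at this
          omega
        have := h2 s hs (mnr x) hm (fam y) (maj y) hyS.1 hy8 hyS.2.1
        rw [← hyj, ← hxs, ← hx8, mk_eta, mk_eta] at this
        exact this
      · rcases hxy with h | h
        · exact absurd hx8 h
        · exact absurd hy8 h
  have k2 : ∀ s t m m', s ≤ 2 * L → t ≤ 2 * L → m ≤ L → m' ≤ L → (m ≠ m' ∨ m = L) →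
      ¬ β (mk 8 (p s) m) (mk 8 (q t) m') := fun s t m m' hs ht hm hm' hmm hn =>
    hno' (K2 hi hj hpN hqN hβ hs ht hm hm' hmm hn)
  have k3 : ∀ s t, s ≤ 2 * L → t ≤ 2 * L → β (mk 8 (p s) 0) (mk 8 (q t) 0) := by
    intro s t hs ht
    by_contra hn
    exact hno' (K3 hi hj hpN hqN hβ hs ht hn)
  have key : ∀ l, l ≤ L → ∀ s t, l ≤ s → s + l ≤ 2 * L → l ≤ t → t + l ≤ 2 * L →
      β (mk 8 (p s) l) (mk 8 (q t) l) := by
    intro l
    induction l with
    | zero => intro _ s t _ hs _ ht; exact k3 s t hs ht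
    | succ m ih =>
      intro hm s t hs1 hs2 ht1 ht2
      by_contra hn
      have ih' := ih (by omega)
      have ew : win L n0 (m + 1) (p s) = win L n0 (m + 1) (q t) := by
        rw [win_eq (hpw s (by omega)).1 (hpw s (by omega)).2,
          win_eq (hqw t (by omega)).1 (hqw t (by omega)).2]
      refine hno' (K1 (s1 := s - 1) (s2 := s) (s3 := s + 1) (t1 := t - 1) (t2 := t) (t3 := t + 1)
        (m := m) (b := win L n0 (m + 1) (p s) % 2) hi hj hpN hqN hβ (by omega) (by omega)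
        (by omega) (by (clear * - hL ht2; omega)) (by omega) (by omega) (hp _ _ (by omega) (by omega))
        (hp _ _ (by omega) (by omega)) (hq _ _ (by omega) (by omega))
        (hq _ _ (by omega) (by omega)) hm (Nat.mod_lt _ (by norm_num)) rfl (by rw [ew])
        (ih' _ _ (by omega) (by omega) (by omega) (by omega))
        (k2 _ _ _ _ (by omega) (by omega) (by omega) hm (Or.inl (by omega)))
        (ih' _ _ (by omega) (by omega) (by omega) (by (clear * - ht2; omega)))
        (k2 _ _ _ _ (by omega) (by omega) hm (by omega) (Or.inl (by omega)))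
        hn
        (k2 _ _ _ _ (by omega) (by omega) hm (by omega) (Or.inl (by omega)))
        (ih' _ _ (by omega) (by omega) (by omega) (by omega))
        (k2 _ _ _ _ (by omega) (by omega) (by omega) hm (Or.inl (by omega)))
        (ih' _ _ (by omega) (by omega) (by omega) (by omega)))
  exact k2 L L L L (by omega) (by omega) le_rfl le_rfl (Or.inr rfl)
    (key L le_rfl L L le_rfl (by omega) le_rfl (by omega))

end Vale.Agent.P037
end
end

section

section

/-!
Far.lean: a matrix which differs from `A_L` in few entries contains a copy of `H`.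
-/

namespace Vale.Agent.P037

open Finset

theorem far (L : ℕ) (hL : 1 ≤ L)
    (B : Matrix (Fin (S L (4*L+4)).card) (Fin (S L (4*L+4)).card) Bool)
    (h : 2 * numDiff (AM L (4*L+4)) B < NN L (4*L+4) ^ 2) : numCopies H B ≠ 0 := by
  classical
  have hn0 : 1 ≤ 4 * L + 4 := by omega
  generalize hn : 4 * L + 4 = n0 at *
  set e := iso L n0 with he
  set β : Row → Row → Prop := fun x y =>
    ∃ (hx : x ∈ S L n0) (hy : y ∈ S L n0), B (e.symm ⟨x, hx⟩) (e.symm ⟨y, hy⟩) = true with hβ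
  have hβi : ∀ (x y : Row) (hx : x ∈ S L n0) (hy : y ∈ S L n0),
      β x y ↔ B (e.symm ⟨x, hx⟩) (e.symm ⟨y, hy⟩) = true := by
    intro x y hx hy
    constructor
    · rintro ⟨_, _, h⟩
      exact h
    · intro h
      exact ⟨hx, hy, h⟩
  set bad : Row → Row → Prop := fun x y => ¬ (β x y ↔ Ent L n0 x y) with hbaddef
  have hcard : ((S L n0 ×ˢ S L n0).filter (fun xy => bad xy.1 xy.2)).card ≤
      numDiff (AM L n0) B := by
    unfold numDiff
    rw [Nat.card_eq_fintype_card]
    rw [← Fintype.card_coe]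
    refine Fintype.card_le_of_injective
      (fun xy => ⟨(e.symm ⟨xy.1.1, (mem_product.1 (mem_filter.1 xy.2).1).1⟩,
        e.symm ⟨xy.1.2, (mem_product.1 (mem_filter.1 xy.2).1).2⟩), ?_⟩) ?_
    · have hxS := (mem_product.1 (mem_filter.1 xy.2).1).1
      have hyS := (mem_product.1 (mem_filter.1 xy.2).1).2
      have hb := (mem_filter.1 xy.2).2
      simp only [hbaddef] at hb
      rw [hβi _ _ hxS hyS] at hb
      intro heq
      apply hb
      simp only at heq
      rw [← heq]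
      simp only [AM, ← he, OrderIso.apply_symm_apply, decide_eq_true_eq]
    · rintro ⟨⟨x, y⟩, hxy⟩ ⟨⟨x', y'⟩, hxy'⟩ heq
      simp only [Subtype.mk.injEq, Prod.mk.injEq, EmbeddingLike.apply_eq_iff_eq] at heq
      simp only [Subtype.mk.injEq, Prod.mk.injEq]
      exact heq
  have hbad : 2 * ((S L n0 ×ˢ S L n0).filter (fun xy => bad xy.1 xy.2)).card < (NN L n0) ^ 2 :=
    lt_of_le_of_lt (Nat.mul_le_mul_left 2 hcard) h
  subst hn
  obtain ⟨i, hi, j, hj, w, hw, p, q, hp, hq, hpw, hqw, g1, g2, g3⟩ := exists_good L bad hbad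
  simp only [hbaddef, not_not] at g1 g2 g3
  obtain ⟨u, v, hu, hv, huS, hvS, huv⟩ := chain L (4 * L + 4) hL hn0 β i j w hi hj hw p q hp hq
    hpw hqw g1 g2 g3
  have hmr : StrictMono (fun a => e.symm ⟨u a, huS a⟩) := fun a b hab =>
    e.symm.strictMono (show (⟨u a, huS a⟩ : {x // x ∈ S L (4 * L + 4)}) < ⟨u b, huS b⟩ from
      hu hab)
  have hmc : StrictMono (fun a => e.symm ⟨v a, hvS a⟩) := fun a b hab =>
    e.symm.strictMono (show (⟨v a, hvS a⟩ : {x // x ∈ S L (4 * L + 4)}) < ⟨v b, hvS b⟩ from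
      hv hab)
  have hcopy : IsCopy H B (OrderEmbedding.ofStrictMono _ hmr) (OrderEmbedding.ofStrictMono _ hmc) := by
    intro a b
    change B (e.symm ⟨u a, huS a⟩) (e.symm ⟨v b, hvS b⟩) = decide (Pat a.1 b.1)
    have h1 := huv a b
    rw [hβi _ _ (huS a) (hvS b)] at h1
    by_cases hP : Pat a.1 b.1
    · rw [h1.2 hP, decide_eq_true hP]
    · have : B (e.symm ⟨u a, huS a⟩) (e.symm ⟨v b, hvS b⟩) = false := by
        rw [Bool.eq_false_iff]
        intro hh
        exact hP (h1.1 hh)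
      rw [this, decide_eq_false hP]
  unfold numCopies
  rw [Nat.card_ne_zero]
  exact ⟨⟨⟨(_, _), hcopy⟩⟩, inferInstance⟩

end Vale.Agent.P037
end
end

section

section

/-!
Assembly: the polynomial removal property fails for `H`.
-/

namespace Vale.Agent.P037

theorem const_free (n : ℕ) : numCopies H (fun _ _ => true : Matrix (Fin n) (Fin n) Bool) = 0 := by
  unfold numCopies
  rw [Nat.card_eq_zero]
  left
  refine ⟨fun rc => ?_⟩
  have := rc.2 0 0
  simp only [H] at this
  exact absurd this (by decide)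

theorem distFree_ge (L : ℕ) (hL : 1 ≤ L) :
    1 / (2 * (5*L+53)^2 : ℝ) ≤ distFree H (AM L (4*L+4)) := by
  set n0 := 4*L+4 with hn0
  have hNNpos : 0 < NN L n0 := by unfold NN; positivity
  have hcard : 0 < (S L n0).card := lt_of_lt_of_le hNNpos (NN_le_card_S L n0)
  set X : Set ℕ := {d : ℕ | ∃ B : Matrix (Fin (S L n0).card) (Fin (S L n0).card) Bool,
    numCopies H B = 0 ∧ numDiff (AM L n0) B = d} with hX
  have hne : X.Nonempty := ⟨_, _, const_free _, rfl⟩
  have hmem : sInf X ∈ X := Nat.sInf_mem hne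
  have hge : NN L n0 ^ 2 ≤ 2 * sInf X := by
    obtain ⟨B, hB0, hBd⟩ := hmem
    by_contra hlt
    push Not at hlt
    rw [← hBd] at hlt
    exact far L hL B hlt hB0
  have hle : (S L n0).card ≤ (5 * L + 53) * NN L n0 := card_S_le L n0
  have hge' : ((NN L n0 : ℝ)) ^ 2 ≤ 2 * ((sInf X : ℕ) : ℝ) := by exact_mod_cast hge
  have hle' : (((S L n0).card : ℕ) : ℝ) ≤ (5 * L + 53) * (NN L n0 : ℝ) := by exact_mod_cast hle
  have hc' : (0:ℝ) < ((S L n0).card : ℕ) := by exact_mod_cast hcard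
  have hN' : (0:ℝ) < NN L n0 := by exact_mod_cast hNNpos
  unfold distFree
  rw [div_le_div_iff₀ (by positivity) (by (clear * - hcard; positivity)), one_mul]
  calc (((S L n0).card : ℕ) : ℝ) ^ 2 ≤ ((5 * L + 53) * (NN L n0 : ℝ)) ^ 2 :=
        pow_le_pow_left₀ hc'.le hle' 2
    _ = (NN L n0 : ℝ) ^ 2 * (5 * L + 53) ^ 2 := by ring
    _ ≤ (2 * ((sInf X : ℕ) : ℝ)) * (5 * L + 53) ^ 2 := by gcongr
    _ = ((sInf X : ℕ) : ℝ) * (2 * (5 * L + 53) ^ 2) := by ring

theorem numCopies_le (L : ℕ) (hL : 1 ≤ L) :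
    (numCopies H (AM L (4*L+4)) : ℝ) ≤
      ((1:ℝ)/2)^(L-1) * (((S L (4*L+4)).card : ℕ) : ℝ) ^ (2 * 49) := by
  have h := numCopies_AM_le L (4*L+4) hL (by omega)
  have h' : (numCopies H (AM L (4*L+4)) : ℝ) * 2 ^ (L-1) ≤
      (((S L (4*L+4)).card : ℕ) : ℝ) ^ (2 * 49) := by exact_mod_cast h
  have h2 : (0:ℝ) < 2 ^ (L-1) := by positivity
  rw [one_div, inv_pow, inv_mul_eq_div, le_div_iff₀ h2]
  exact h'

theorem one_le_card (L : ℕ) : 1 ≤ (S L (4*L+4)).card := by
  have hNNpos : 0 < NN L (4*L+4) := by unfold NN; positivity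
  exact lt_of_lt_of_le hNNpos (NN_le_card_S L (4*L+4))

theorem not_polynomialRemoval : ¬ PolynomialRemoval H := by
  rintro ⟨c, C, hc, hC, h⟩
  obtain ⟨L, hL, hlt⟩ := final_arith c C hc hC
  have hn := one_le_card L
  have hn' : (0:ℝ) < ((S L (4*L+4)).card : ℕ) := by exact_mod_cast hn
  have hLr : (1:ℝ) ≤ L := by exact_mod_cast hL
  have hε1 : 1 / (2 * (5*L+53)^2 : ℝ) < 1 := by
    rw [div_lt_one (by positivity)]
    nlinarith only [hLr]
  have h1 := h (S L (4*L+4)).card (1 / (2 * (5*L+53)^2 : ℝ)) (AM L (4*L+4)) hn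
    (by positivity) hε1 (distFree_ge L hL)
  have h2 := numCopies_le L hL
  have h3 : (0:ℝ) < (((S L (4*L+4)).card : ℕ) : ℝ) ^ (2 * 49) := by (clear * - hn; positivity)
  have h4 := lt_of_lt_of_le (mul_lt_mul_of_pos_right hlt h3) (h1.trans h2)
  exact lt_irrefl _ h4

theorem quant : ∃ a : ℝ, 0 < a ∧ ∃ ε₀ : ℝ, 0 < ε₀ ∧ ∀ ε : ℝ, 0 < ε → ε ≤ ε₀ →
    ∃ (n : ℕ) (A : Matrix (Fin n) (Fin n) Bool), 1 ≤ n ∧ ε ≤ distFree H A ∧
      (numCopies H A : ℝ) ≤ Real.exp (-a / Real.sqrt ε) * (n : ℝ) ^ (2 * 49) := by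
  obtain ⟨a, ha, e0, he0, _, h⟩ := final_arith_quant
  refine ⟨a, ha, e0, he0, fun ε hε hεe => ?_⟩
  obtain ⟨L, hL, h1, h2⟩ := h ε hε hεe
  refine ⟨(S L (4*L+4)).card, AM L (4*L+4), one_le_card L, h1.trans (distFree_ge L hL), ?_⟩
  exact (numCopies_le L hL).trans (mul_le_mul_of_nonneg_right h2 (by (clear * -; positivity)))

end Vale.Agent.P037
end
end

section

section

namespace Vale.Agent.P037.Mini

variable {L m : ℕ}

/-! ### cardinalities -/

theorem card_cls (L : ℕ) : Fintype.card (Cls L) = 34 * L + 35 := by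
  let e : Cls L ≃ (Q L ⊕ Q L) ⊕ (Fin (2 * L + 1) ⊕ Bool) :=
    { toFun := fun c => match c with
        | .a q => .inl (.inl q)
        | .b q => .inl (.inr q)
        | .act s => .inr (.inl s)
        | .S => .inr (.inr false)
        | .T => .inr (.inr true)
      invFun := fun x => match x with
        | .inl (.inl q) => .a q
        | .inl (.inr q) => .b q
        | .inr (.inl s) => .act s
        | .inr (.inr false) => .S
        | .inr (.inr true) => .T
      left_inv := fun c => by cases c <;> rfl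
      right_inv := fun x => by
        rcases x with (q | q) | (s | (_ | _)) <;> rfl }
  rw [Fintype.card_congr e]
  simp only [Fintype.card_sum, Fintype.card_prod, Fintype.card_fin, Nat.reduceMul, Fintype.card_bool]
  ring

theorem card_row (L m : ℕ) : Fintype.card (Row L m) = (34 * L + 35) * (2 ^ L * m) := by
  let e : Row L m ≃ Cls L × Fin (2 ^ L * m) :=
    { toFun := fun x => (x.cls, x.par)
      invFun := fun x => ⟨x.1, x.2⟩
      left_inv := fun x => rfl
      right_inv := fun x => rfl }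
  rw [Fintype.card_congr e, Fintype.card_prod, card_cls, Fintype.card_fin]

theorem H5_eq (i j : Fin 5) : H5 i j = pat i j := by
  fin_cases i <;> fin_cases j <;> rfl

theorem pat_row (i : Fin 5) : ∃ j, pat i j = true := by
  revert i; decide

theorem pat_col (j : Fin 5) : ∃ i, pat i j = true := by
  revert j; decide

open Classical in
/-- the matrix of size `n` -/
noncomputable def bigMat {n : ℕ} (ι : Row L m ↪o Fin n) : Matrix (Fin n) (Fin n) Bool :=
  fun i j => decide (∃ x y, ι x = i ∧ ι y = j ∧ adj false x y)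

theorem bigMat_apply {n : ℕ} (ι : Row L m ↪o Fin n) (x y : Row L m) :
    bigMat ι (ι x) (ι y) = true ↔ adj false x y := by
  unfold bigMat
  simp only [decide_eq_true_eq]
  constructor
  · rintro ⟨x', y', hx, hy, h⟩
    rw [ι.injective hx, ι.injective hy] at h
    exact h
  · intro h
    exact ⟨x, y, rfl, rfl, h⟩

theorem bigMat_range {n : ℕ} (ι : Row L m ↪o Fin n) {i j : Fin n} (h : bigMat ι i j = true) :
    (∃ x, ι x = i) ∧ (∃ y, ι y = j) := by
  unfold bigMat at h
  simp only [decide_eq_true_eq] at h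
  obtain ⟨x, y, hx, hy, _⟩ := h
  exact ⟨⟨x, hx⟩, ⟨y, hy⟩⟩

theorem copy_leaf' {n : ℕ} (ι : Row L m ↪o Fin n) {r c : Fin 5 ↪o Fin n}
    (h : IsCopy H5 (bigMat ι) r c) :
    ∃ p p' : Fin (2 ^ L * m), r 3 = ι ⟨.act ⟨L, by omega⟩, p⟩ ∧
      c 3 = ι ⟨.act ⟨L, by omega⟩, p'⟩ ∧ (p : ℕ) / m = (p' : ℕ) / m := by
  have hr : ∀ i, ∃ x, ι x = r i := by
    intro i
    obtain ⟨j, hj⟩ := pat_row i
    exact (bigMat_range ι ((h i j).trans ((H5_eq i j).trans hj))).1
  have hc : ∀ j, ∃ y, ι y = c j := by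
    intro j
    obtain ⟨i, hi⟩ := pat_col j
    exact (bigMat_range ι ((h i j).trans ((H5_eq i j).trans hi))).2
  choose r' hr' using hr
  choose c' hc' using hc
  have mr : StrictMono r' := fun i j hij => by
    rw [← ι.lt_iff_lt, hr', hr']; exact r.strictMono hij
  have mc : StrictMono c' := fun i j hij => by
    rw [← ι.lt_iff_lt, hc', hc']; exact c.strictMono hij
  obtain ⟨p, p', h1, h2, h3⟩ := copy_leaf (f := false) mr mc (fun i j => by
    rw [← bigMat_apply ι, hr', hc', h i j, H5_eq])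
  exact ⟨p, p', by rw [← hr', h1], by rw [← hc', h2], h3⟩

theorem numCopies_le {n : ℕ} (ι : Row L m ↪o Fin n) :
    numCopies H5 (bigMat ι) ≤ 2 ^ L * m * m * (n ^ 4 * n ^ 4) := by
  rcases Nat.eq_zero_or_pos m with h0 | hm
  · have : IsEmpty {rc : (Fin 5 ↪o Fin n) × (Fin 5 ↪o Fin n) //
        IsCopy H5 (bigMat ι) rc.1 rc.2} := by
      refine ⟨fun rc => ?_⟩
      obtain ⟨p, _⟩ := copy_leaf' ι rc.2
      have := pos_of_fin p
      omega
    unfold numCopies
    rw [Nat.card_of_isEmpty]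
    exact Nat.zero_le _
  have key := fun rc : {rc : (Fin 5 ↪o Fin n) × (Fin 5 ↪o Fin n) //
        IsCopy H5 (bigMat ι) rc.1 rc.2} => copy_leaf' ι rc.2
  choose p p' h1 h2 h3 using key
  let F : {rc : (Fin 5 ↪o Fin n) × (Fin 5 ↪o Fin n) // IsCopy H5 (bigMat ι) rc.1 rc.2} →
      (Fin (2 ^ L * m) × Fin m) × ((Fin 4 → Fin n) × (Fin 4 → Fin n)) := fun rc =>
    ((p rc, ⟨(p' rc : ℕ) % m, Nat.mod_lt _ hm⟩),
      (fun k => rc.1.1 ((3 : Fin 5).succAbove k), fun k => rc.1.2 ((3 : Fin 5).succAbove k)))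
  have hF : Function.Injective F := by
    intro x y hxy
    simp only [F, Prod.mk.injEq, Fin.mk.injEq] at hxy
    obtain ⟨⟨e1, e2⟩, e3, e4⟩ := hxy
    have e5 : p' x = p' y := by
      apply Fin.ext
      rw [← Nat.div_add_mod (p' x : ℕ) m, ← Nat.div_add_mod (p' y : ℕ) m, ← h3 x, ← h3 y, e1, e2]
    have e6 : x.1.1 3 = y.1.1 3 := by rw [h1 x, h1 y, e1]
    have e7 : x.1.2 3 = y.1.2 3 := by rw [h2 x, h2 y, e5]
    apply Subtype.ext
    apply Prod.ext
    · apply RelEmbedding.ext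
      intro i
      rcases Fin.eq_self_or_eq_succAbove (3 : Fin 5) i with h | ⟨k, h⟩
      · rw [h]; exact e6
      · rw [h]; exact congrFun e3 k
    · apply RelEmbedding.ext
      intro i
      rcases Fin.eq_self_or_eq_succAbove (3 : Fin 5) i with h | ⟨k, h⟩
      · rw [h]; exact e7
      · rw [h]; exact congrFun e4 k
  unfold numCopies
  calc _ ≤ Nat.card ((Fin (2 ^ L * m) × Fin m) × ((Fin 4 → Fin n) × (Fin 4 → Fin n))) :=
        Nat.card_le_card_of_injective F hF
    _ = _ := by simp only [Nat.card_eq_fintype_card, Fintype.card_prod, Fintype.card_fin, Fintype.card_pi, Finset.prod_const, Finset.card_univ]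

theorem free_false {n : ℕ} : numCopies H5 (fun _ _ : Fin n => false) = 0 := by
  have : IsEmpty {rc : (Fin 5 ↪o Fin n) × (Fin 5 ↪o Fin n) //
        IsCopy H5 (fun _ _ : Fin n => false) rc.1 rc.2} := by
    refine ⟨fun rc => ?_⟩
    have := rc.2 0 0
    rw [H5_eq] at this
    simp [pat] at this
  unfold numCopies
  exact Nat.card_of_isEmpty

theorem numDiff_ge (hL : 1 ≤ L) {n : ℕ} (ι : Row L m ↪o Fin n) (B : Matrix (Fin n) (Fin n) Bool)
    (hB : numCopies H5 B = 0) : (2 ^ L * m) ^ 2 ≤ numDiff (bigMat ι) B := by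
  have hno : ∀ r c : Fin 5 → Row L m, StrictMono r → StrictMono c →
      ¬ ∀ i j, (fun x y => B (ι x) (ι y) = true) (r i) (c j) ↔ pat i j = true := by
    intro r c hr hc hh
    unfold numCopies at hB
    rw [Nat.card_eq_zero] at hB
    rcases hB with hB | hB
    · apply hB.false
      refine ⟨(OrderEmbedding.ofStrictMono (fun i => ι (r i)) (ι.strictMono.comp hr),
        OrderEmbedding.ofStrictMono (fun i => ι (c i)) (ι.strictMono.comp hc)), ?_⟩
      intro i j
      simp only [OrderEmbedding.coe_ofStrictMono]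
      have := hh i j
      simp only at this
      rw [H5_eq]
      exact Bool.eq_iff_iff.2 this
    · exact hB.not_finite inferInstance
  refine (far (B := fun x y => B (ι x) (ι y) = true) hL hno).trans ?_
  unfold numDiff
  refine Nat.card_le_card_of_injective (fun x => ⟨(ι x.1.1, ι x.1.2), ?_⟩) ?_
  · have hx := x.2
    intro hcon
    apply hx
    simp only at hcon ⊢
    rw [← hcon, bigMat_apply]
  · intro x y hxy
    simp only [Subtype.mk.injEq, Prod.mk.injEq, EmbeddingLike.apply_eq_iff_eq] at hxy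
    exact Subtype.ext (Prod.ext hxy.1 hxy.2)

theorem dist_ge (hL : 1 ≤ L) {n : ℕ} (ι : Row L m ↪o Fin n) :
    ((2 ^ L * m : ℕ) : ℝ) ^ 2 / (n : ℝ) ^ 2 ≤ distFree H5 (bigMat ι) := by
  unfold distFree
  apply div_le_div_of_nonneg_right _ (by positivity)
  have : (2 ^ L * m) ^ 2 ≤ sInf {d : ℕ | ∃ B : Matrix (Fin n) (Fin n) Bool,
      numCopies H5 B = 0 ∧ numDiff (bigMat ι) B = d} := by
    apply le_csInf
    · exact ⟨_, (fun _ _ => false), free_false, rfl⟩
    · rintro d ⟨B, h1, h2⟩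
      rw [← h2]
      exact numDiff_ge hL ι B h1
  exact_mod_cast this

/-- the construction for a given `L` and `n` -/
theorem main_L (hL : 1 ≤ L) {n : ℕ} (hn : (34 * L + 35) * 2 ^ L ≤ n) :
    ∃ A : Matrix (Fin n) (Fin n) Bool,
      1 / (2 * (34 * (L : ℝ) + 35)) ^ 2 ≤ distFree H5 A ∧
      (numCopies H5 A : ℝ) * 2 ^ L ≤ (n : ℝ) ^ 10 := by
  set K := (34 * L + 35) * 2 ^ L with hK
  have hKpos : 0 < K := by positivity
  let m := n / K
  have hm : 1 ≤ m := (Nat.one_le_div_iff hKpos).2 hn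
  have hmn : K * m ≤ n := Nat.mul_div_le n K
  have hn2 : n < K * (m + 1) := Nat.lt_mul_div_succ n hKpos
  have hcard : Fintype.card (Row L m) = K * m := by
    rw [card_row, hK]; ring
  let e : Row L m ≃o Fin (K * m) := (Fintype.orderIsoFinOfCardEq _ hcard).symm
  let ι : Row L m ↪o Fin n := e.toOrderEmbedding.trans (Fin.castLEOrderEmb hmn)
  refine ⟨bigMat ι, ?_, ?_⟩
  · refine le_trans ?_ (dist_ge hL ι)
    have hnpos : 0 < n := by omega
    have h1 : (n : ℝ) ≤ 2 * (34 * (L : ℝ) + 35) * ((2 ^ L * m : ℕ) : ℝ) := by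
      have h2 : n ≤ 2 * (34 * L + 35) * (2 ^ L * m) := by
        have : K * (m + 1) ≤ K * (2 * m) := Nat.mul_le_mul_left _ (by (clear * - hm; omega))
        calc n ≤ K * (2 * m) := by omega
          _ = _ := by rw [hK]; ring
      exact_mod_cast h2
    rw [← div_pow, ← one_div_pow]
    apply pow_le_pow_left₀ (by positivity)
    rw [div_le_div_iff₀ (by positivity) (by exact_mod_cast hnpos)]
    linarith only [h1]
  · have h1 := numCopies_le ι
    have h2 : numCopies H5 (bigMat ι) * 2 ^ L ≤ n ^ 10 := by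
      have h3 : 2 ^ L * m ≤ n := by
        calc 2 ^ L * m ≤ K * m := by
              apply Nat.mul_le_mul_right
              rw [hK]
              exact Nat.le_mul_of_pos_left _ (by positivity)
          _ ≤ n := hmn
      calc numCopies H5 (bigMat ι) * 2 ^ L
          ≤ (2 ^ L * m * m * (n ^ 4 * n ^ 4)) * 2 ^ L := Nat.mul_le_mul_right _ h1
        _ = (2 ^ L * m) * (2 ^ L * m) * n ^ 8 := by ring
        _ ≤ n * n * n ^ 8 := by (clear * - h3; gcongr)
        _ = n ^ 10 := by ring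
    exact_mod_cast h2

end Vale.Agent.P037.Mini
end
end

section

section

namespace Vale.Agent.P037.Mini

open Filter Topology

theorem not_poly : ¬ PolynomialRemoval H5 := by
  rintro ⟨c, C, hc, hC, h⟩
  obtain ⟨d, hd⟩ := exists_nat_ge (2 * C)
  have key : ∀ L : ℕ, 1 ≤ L → c * 2 ^ L ≤ (138 : ℝ) ^ d * (L : ℝ) ^ d := by
    intro L hL
    obtain ⟨n, hn⟩ : ∃ n, n = (34 * L + 35) * 2 ^ L := ⟨_, rfl⟩
    obtain ⟨A, hA1, hA2⟩ := main_L hL (n := n) hn.ge
    have hnpos : 0 < n := by rw [hn]; (clear * - hL; positivity)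
    have hL1 : (1 : ℝ) ≤ (L : ℝ) := by exact_mod_cast hL
    have hK : (0 : ℝ) < 2 * (34 * (L : ℝ) + 35) := by positivity
    have hε1 : 1 / (2 * (34 * (L : ℝ) + 35)) ^ 2 < 1 := by
      rw [div_lt_one (by positivity)]
      nlinarith only [hL1]
    have h1 := h n (1 / (2 * (34 * (L : ℝ) + 35)) ^ 2) A hnpos (by positivity) hε1 hA1
    have hn10 : (0 : ℝ) < (n : ℝ) ^ 10 := by positivity
    have h2 : c * (1 / (2 * (34 * (L : ℝ) + 35)) ^ 2) ^ C * 2 ^ L ≤ 1 := by
      have h3 : (c * (1 / (2 * (34 * (L : ℝ) + 35)) ^ 2) ^ C * 2 ^ L) * (n : ℝ) ^ 10 ≤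
          1 * (n : ℝ) ^ 10 := by
        calc (c * (1 / (2 * (34 * (L : ℝ) + 35)) ^ 2) ^ C * 2 ^ L) * (n : ℝ) ^ 10
            = (c * (1 / (2 * (34 * (L : ℝ) + 35)) ^ 2) ^ C * (n : ℝ) ^ (2 * 5)) * 2 ^ L := by
              ring
          _ ≤ (numCopies H5 A : ℝ) * 2 ^ L := by (clear * - h1; gcongr)
          _ ≤ 1 * (n : ℝ) ^ 10 := by rw [one_mul]; exact hA2
      exact le_of_mul_le_mul_right h3 hn10
    have h4 : (1 / (2 * (34 * (L : ℝ) + 35)) ^ 2) ^ C =
        ((2 * (34 * (L : ℝ) + 35)) ^ (2 * C))⁻¹ := by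
      rw [one_div, Real.inv_rpow (by positivity), ← Real.rpow_natCast,
        ← Real.rpow_mul hK.le]
      norm_num
    rw [h4] at h2
    have h5 : c * 2 ^ L ≤ (2 * (34 * (L : ℝ) + 35)) ^ (2 * C) := by
      have h6 : (0 : ℝ) < (2 * (34 * (L : ℝ) + 35)) ^ (2 * C) := by positivity
      calc c * 2 ^ L = (c * ((2 * (34 * (L : ℝ) + 35)) ^ (2 * C))⁻¹ * 2 ^ L) *
            (2 * (34 * (L : ℝ) + 35)) ^ (2 * C) := by
            field_simp
        _ ≤ 1 * (2 * (34 * (L : ℝ) + 35)) ^ (2 * C) := by (clear * - h2 hL; gcongr)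
        _ = _ := one_mul _
    have h7 : (2 * (34 * (L : ℝ) + 35)) ^ (2 * C) ≤ (138 * (L : ℝ)) ^ (d : ℝ) := by
      calc (2 * (34 * (L : ℝ) + 35)) ^ (2 * C) ≤ (2 * (34 * (L : ℝ) + 35)) ^ (d : ℝ) :=
            Real.rpow_le_rpow_of_exponent_le (by nlinarith only []) hd
        _ ≤ (138 * (L : ℝ)) ^ (d : ℝ) :=
            Real.rpow_le_rpow hK.le (by linarith only [hL1]) (by (clear * -; positivity))
    rw [Real.rpow_natCast, mul_pow] at h7
    exact h5.trans h7
  have hlim := tendsto_pow_const_div_const_pow_of_one_lt d (r := (2 : ℝ)) (by norm_num)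
  have h138 : (0 : ℝ) < 138 ^ d := by positivity
  have hev := (hlim.eventually (gt_mem_nhds (show (0 : ℝ) < c / 138 ^ d by positivity))).and
    (eventually_ge_atTop 1)
  obtain ⟨L, hL1, hL2⟩ := hev.exists
  have h8 := key L hL2
  rw [div_lt_div_iff₀ (by positivity) h138] at hL1
  linarith only [hL1, h8]

theorem quant {ε : ℝ} (h0 : 0 < ε) (h1 : ε ≤ 1 / 100000) {n : ℕ}
    (hn : (2 : ℝ) ^ (1 / √ε) ≤ n) :
    ∃ A : Matrix (Fin n) (Fin n) Bool, ε ≤ distFree H5 A ∧
      (numCopies H5 A : ℝ) ≤ 2 ^ (-(1 / (136 * √ε))) * (n : ℝ) ^ 10 := by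
  set s := √ε with hs
  have hs0 : 0 < s := Real.sqrt_pos.2 h0
  have hss : s ^ 2 = ε := Real.sq_sqrt h0.le
  have hs1 : s ≤ 1 / 276 := by
    apply le_of_sq_le_sq _ (by norm_num)
    rw [hss]
    exact h1.trans (by norm_num)
  obtain ⟨X, hX⟩ : ∃ X, X = 1 / (2 * s) := ⟨_, rfl⟩
  have hX1 : 138 ≤ X := by
    rw [hX, le_div_iff₀ (by positivity)]
    linarith only [hs1]
  have hXs : 1 / s = 2 * X := by
    rw [hX]; (clear * - hs0; field_simp)
  have hX136 : 1 / (136 * s) = X / 68 := by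
    rw [hX]; field_simp; norm_num
  have hXe : ε = 1 / (2 * X) ^ 2 := by
    rw [← hXs, ← hss]; field_simp
  let L := ⌊(X - 35) / 34⌋₊
  have hLle : (L : ℝ) ≤ (X - 35) / 34 := Nat.floor_le (by linarith only [hX1])
  have hLlt : (X - 35) / 34 < (L : ℝ) + 1 := Nat.lt_floor_add_one _
  have hL68 : X / 68 ≤ (L : ℝ) := by linarith only [hX1, hLlt]
  have hL1 : 1 ≤ L := by
    have : (1 : ℝ) ≤ (L : ℝ) := by linarith only [hX1, hLlt]
    exact_mod_cast this
  have hnn : (34 * L + 35) * 2 ^ L ≤ n := by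
    have h2 : ((34 * L + 35) * 2 ^ L : ℕ) ≤ 2 ^ (34 * L + 35 + L) := by
      rw [pow_add _ (34 * L + 35)]
      exact Nat.mul_le_mul_right _ (Nat.lt_two_pow_self).le
    have h3 : ((2 ^ (34 * L + 35 + L) : ℕ) : ℝ) ≤ n := by
      refine le_trans ?_ hn
      rw [hXs]
      push_cast
      rw [← Real.rpow_natCast]
      apply Real.rpow_le_rpow_of_exponent_le (by norm_num)
      push_cast
      linarith only [hLle]
    have h4 : 2 ^ (34 * L + 35 + L) ≤ n := by exact_mod_cast h3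
    exact h2.trans h4
  obtain ⟨A, hA1, hA2⟩ := main_L hL1 hnn
  refine ⟨A, le_trans ?_ hA1, ?_⟩
  · rw [hXe]
    apply one_div_le_one_div_of_le (by positivity)
    apply pow_le_pow_left₀ (by positivity)
    linarith only [hLle]
  · rw [hX136]
    have h5 : (2 : ℝ) ^ (-(L : ℝ)) ≤ 2 ^ (-(X / 68)) :=
      Real.rpow_le_rpow_of_exponent_le (by norm_num) (by linarith only [hX1, hLlt])
    calc (numCopies H5 A : ℝ) = 2 ^ (-(L : ℝ)) * ((numCopies H5 A : ℝ) * 2 ^ L) := by
          rw [Real.rpow_neg (by norm_num), Real.rpow_natCast]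
          (clear * -; field_simp)
      _ ≤ 2 ^ (-(X / 68)) * (n : ℝ) ^ 10 := by (clear * - h5 hA2; gcongr)

end Vale.Agent.P037.Mini
end
end
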